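import Mathlib

/-!
# P287D, block GF: algebraic extensions of the constants (abstract algebra)
-/

set_option linter.all false

open Set Polynomial TensorProduct

noncomputable section

namespace Vale.Agent.P287D.Gf

/-- the unramified step -/
theorem hensel {L O R κ κ' : Type} [Field L] [CommRing O] [CommRing R] [Field κ] [Field κ']
    (l : L →+* O) (π : O →+* κ) (hπ : Function.Surjective π) {t : O} (ht : ∀ x, π x = 0 → t ∣ x)
    (e : O →+* R) (π' : R →+* κ') (ρ : κ →+* κ') (sq : ∀ x, π' (e x) = ρ (π x)) {a : R}
    {p : L[X]} (hp : p.Separable) (ha : (p.map l).eval₂ e a = 0) {F : O[X]}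
    (hF : π' (F.eval₂ e a) = 0) :
    ∃ H W : O[X], π' (H.eval₂ e a) ≠ 0 ∧ H.eval₂ e a * F.eval₂ e a = e t * W.eval₂ e a := by
  letI : Algebra κ κ' := ρ.toAlgebra
  have ev : ∀ G : O[X], π' (G.eval₂ e a) = aeval (π' a) (G.map π) := fun G => by
    rw [hom_eval₂, aeval_def, eval₂_map]
    exact congrArg (fun f => eval₂ f (π' a) G) (RingHom.ext sq)
  have hs : ((p.map l).map π).Separable := (hp.map).map
  have h0 : aeval (π' a) ((p.map l).map π) = 0 := by rw [← ev, ha, map_zero]
  obtain ⟨h, hh⟩ := minpoly.dvd κ (π' a) h0
  obtain ⟨q, hq⟩ := minpoly.dvd κ (π' a) ((ev F).symm.trans hF)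
  obtain ⟨H, rfl⟩ := map_surjective π hπ h
  obtain ⟨U, rfl⟩ := map_surjective π hπ q
  have hc : IsCoprime (minpoly κ (π' a)) (H.map π) := (hh ▸ hs).isCoprime
  have hd : C t ∣ H * F - p.map l * U := (C_dvd_iff_dvd_coeff _ _).2 fun i => ht _ (by
    rw [← coeff_map, Polynomial.map_sub, Polynomial.map_mul, Polynomial.map_mul, hh, hq]
    ring_nf
    simp)
  obtain ⟨W, hW⟩ := hd
  refine ⟨H, W, fun k => ?_, ?_⟩
  · obtain ⟨u, w, huw⟩ := hc
    have := congrArg (aeval (π' a)) huw
    rw [map_add, map_mul, map_mul, minpoly.aeval, ← ev, k] at this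
    simp at this
  · have := congrArg (eval₂ e a) hW
    rwa [eval₂_sub, eval₂_mul, eval₂_mul, eval₂_mul, ha, zero_mul, sub_zero, eval₂_C] at this

theorem mem_range {C K' : Type} [Field C] [Field K'] [Algebra C K'] [IsAlgClosed C] {x : K'}
    (h : IsAlgebraic C x) : x ∈ range (algebraMap C K') :=
  minpoly.mem_range_of_degree_eq_one C x
    (IsAlgClosed.degree_eq_one_of_irreducible C (minpoly.irreducible h.isIntegral))

/-- a primitive element for finitely many constants -/
theorem prim {L C : Type} [Field L] [Field C] [Algebra L C] [CharZero L] (s : Finset C)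
    (hs : ∀ c ∈ s, IsIntegral L c) : ∃ α : C, IsIntegral L α ∧
      ∀ c ∈ s, ∃ g : L[X], g.degree < (minpoly L α).degree ∧ aeval α g = c := by
  have : FiniteDimensional L (IntermediateField.adjoin L (s : Set C)) :=
    IntermediateField.finiteDimensional_adjoin fun c hc => hs c hc
  obtain ⟨α, hα⟩ := Field.exists_primitive_element L (IntermediateField.adjoin L (s : Set C))
  have hi : IsIntegral L α := .of_finite L α
  have hj : IsIntegral L (α : C) := hi.map (IntermediateField.val _)
  refine ⟨α, hj, fun c hc => ?_⟩
  have h1 : (⟨c, IntermediateField.subset_adjoin _ _ hc⟩ : IntermediateField.adjoin L (s : Set C))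
      ∈ Algebra.adjoin L {α} := by
    rw [← IntermediateField.adjoin_simple_toSubalgebra_of_isAlgebraic hi.isAlgebraic, hα]
    trivial
  rw [Algebra.adjoin_singleton_eq_range_aeval] at h1
  obtain ⟨g, hg⟩ := h1
  refine ⟨g %ₘ minpoly L (α : C), degree_modByMonic_lt _ (minpoly.monic hj), ?_⟩
  rw [minpoly.aeval_modByMonic_minpoly]
  exact (aeval_algHom_apply (IntermediateField.val _) α g).trans (congrArg Subtype.val hg)

section

variable {L K C K' : Type} [Field L] [Field K] [Field C] [Field K'] [Algebra L K] [Algebra L C]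
  [Algebra K K'] [Algebra C K'] [Algebra L K'] [IsScalarTower L K K'] [IsScalarTower L C K']

theorem zero_of_deg (hcl : ∀ e : K, IsAlgebraic L e → e ∈ range (algebraMap L K)) {α : C}
    (hα : IsIntegral L α) {G : K[X]} (hG : G.degree < (minpoly L α).degree)
    (h0 : aeval (algebraMap C K' α) G = 0) : G = 0 := by
  by_contra hG0
  have hL : IsIntegral L (algebraMap C K' α) := hα.algebraMap
  have hK : IsIntegral K (algebraMap C K' α) := hL.tower_top
  have hd := minpoly.dvd_map_of_isScalarTower L K (algebraMap C K' α)
  have hl : minpoly K (algebraMap C K' α) ∈ lifts (algebraMap L K) :=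
    (lifts_iff_coeff_lifts _).2 fun n => hcl _
      (isIntegral_coeff_of_dvd _ _ (minpoly.monic hL) (minpoly.monic hK) hd n).isAlgebraic
  obtain ⟨q, hq, hq1, hq2⟩ := lifts_and_degree_eq_and_monic hl (minpoly.monic hK)
  have h1 : aeval α q = 0 := (algebraMap C K').injective (by
    rw [← aeval_algebraMap_apply, map_zero, ← aeval_map_algebraMap K, hq, minpoly.aeval])
  have h2 := minpoly.min L α hq2 h1
  have h3 := minpoly.degree_le_of_ne_zero K _ hG0 h0
  exact absurd (h2.trans (hq1.le.trans h3)) (not_le.2 hG)

/-- linear disjointness -/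
theorem ld [CharZero L] [Algebra.IsAlgebraic L C]
    (hcl : ∀ e : K, IsAlgebraic L e → e ∈ range (algebraMap L K)) {ι : Type*} {v : ι → K}
    (hv : LinearIndependent L v) : LinearIndependent C fun i => algebraMap K K' (v i) := by
  classical
  refine linearIndependent_iff'.2 fun s g hg i hi => ?_
  obtain ⟨α, hα, h⟩ := prim (L := L) (s.image g) fun c _ => Algebra.IsIntegral.isIntegral c
  have h' : ∀ i ∈ s, ∃ p : L[X], p.degree < (minpoly L α).degree ∧ aeval α p = g i :=
    fun i hi => h _ (Finset.mem_image_of_mem g hi)
  choose! p hp using h'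
  have hG : ∑ i ∈ s, Polynomial.C (v i) * (p i).map (algebraMap L K) = 0 := by
    refine zero_of_deg (K' := K') hcl hα ?_ ?_
    · refine (degree_sum_le _ _).trans_lt
        ((Finset.sup_lt_iff (bot_lt_iff_ne_bot.2 ?_)).2 fun i hi => ?_)
      · exact degree_ne_bot.2 (minpoly.ne_zero hα)
      · rw [← smul_eq_C_mul]
        exact (degree_smul_le _ _).trans_lt (degree_map_le.trans_lt (hp i hi).1)
    · rw [map_sum, ← hg]
      refine Finset.sum_congr rfl fun i hi => ?_
      rw [map_mul, aeval_C, aeval_map_algebraMap, aeval_algebraMap_apply, (hp i hi).2,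
        Algebra.smul_def, mul_comm]
  have h0 : p i = 0 := Polynomial.ext fun n => by
    refine linearIndependent_iff'.1 hv s (fun i => (p i).coeff n) ?_ i hi
    have := congrArg (fun q => coeff q n) hG
    simp only [finset_sum_coeff, coeff_C_mul, coeff_map, coeff_zero] at this
    rw [← this]
    exact Finset.sum_congr rfl fun i _ => by rw [Algebra.smul_def, mul_comm]
  rw [← (hp i hi).2, h0, map_zero]

variable (L K C K') in
/-- an extension of the constants -/
structure BE : Prop where
  gen : Subfield.closure (range (algebraMap K K') ∪ range (algebraMap C K')) = ⊤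
  dis : ∀ (m : ℕ) (v : Fin m → K), LinearIndependent L v →
    LinearIndependent C fun i => algebraMap K K' (v i)

namespace BE

variable (h : BE L K C K')
include h

theorem dis' {ι : Type*} {v : ι → K} (hv : LinearIndependent L v) :
    LinearIndependent C fun i => algebraMap K K' (v i) :=
  linearIndependent_iff_finset_linearIndependent.2 fun s =>
    (linearIndependent_equiv s.equivFin.symm).1 (h.dis _ _
      (hv.comp _ (Subtype.val_injective.comp s.equivFin.symm.injective)))

theorem cld [IsAlgClosed C] (f : K) (hf : IsAlgebraic L f) : f ∈ range (algebraMap L K) := by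
  by_contra k
  have h1 : IsAlgebraic C (algebraMap K K' f) := (hf.algebraMap (A := K')).tower_top C
  obtain ⟨c, hc⟩ := mem_range h1
  have h2 : LinearIndependent L ![1, f] := (LinearIndependent.pair_iff' one_ne_zero).2
    fun a e => k ⟨a, by rw [← e, Algebra.algebraMap_eq_smul_one]⟩
  have h3 := h.dis _ _ h2
  have h4 : (fun i => algebraMap K K' (![1, f] i)) = ![1, algebraMap K K' f] := by
    funext i; fin_cases i <;> simp
  rw [h4] at h3
  exact (LinearIndependent.pair_iff' one_ne_zero).1 h3 c (by rw [← hc, Algebra.algebraMap_eq_smul_one])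

theorem algInd {ι : Type*} {x : ι → K} (hx : AlgebraicIndependent L x) :
    AlgebraicIndependent C fun i => algebraMap K K' (x i) := by
  have e : ∀ {A B : Type} [Field A] [Field B] [Algebra A B] (y : ι → B),
      AlgebraicIndependent A y ↔
        LinearIndependent A fun m : ι →₀ ℕ => m.prod fun i k => y i ^ k := fun {A B} _ _ _ y => by
    have : (MvPolynomial.aeval y : MvPolynomial ι A →ₐ[A] B).toLinearMap ∘
        MvPolynomial.basisMonomials ι A = fun m : ι →₀ ℕ => m.prod fun i k => y i ^ k := by
      funext m
      simp [MvPolynomial.aeval_monomial]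
    rw [← this]
    exact ⟨fun k => (MvPolynomial.basisMonomials ι A).linearIndependent.map' _
      (LinearMap.ker_eq_bot.2 k), fun k => LinearMap.injective_of_linearIndependent
        (MvPolynomial.basisMonomials ι A).span_eq k⟩
  rw [e] at hx ⊢
  simpa [map_finsuppProd] using h.dis' hx

variable [Algebra.IsAlgebraic L C]

theorem adj : IntermediateField.adjoin K (range (algebraMap C K')) = ⊤ := by
  refine eq_top_iff.2 fun x _ => ?_
  have : Subfield.closure (range (algebraMap K K') ∪ range (algebraMap C K')) ≤
      (IntermediateField.adjoin K (range (algebraMap C K'))).toSubfield := le_rfl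
  exact this (h.gen ▸ Subfield.mem_top x)

theorem int (c : C) : IsIntegral K (algebraMap C K' c) :=
  ((Algebra.IsIntegral.isIntegral (R := L) c).algebraMap (B := K')).tower_top

theorem isAlg : Algebra.IsAlgebraic K K' := ⟨fun x => by
  have : IntermediateField.adjoin K (range (algebraMap C K')) ≤ algebraicClosure K K' :=
    IntermediateField.adjoin_le_iff.2 (by
      rintro _ ⟨c, rfl⟩
      exact mem_algebraicClosure_iff'.2 (h.int c))
  exact mem_algebraicClosure_iff.1 (this (h.adj ▸ IntermediateField.mem_top))⟩

theorem span (x : K') : x ∈ Submodule.span C (range (algebraMap K K')) := by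
  have h1 : x ∈ Algebra.adjoin K (range (algebraMap C K')) := by
    rw [← IntermediateField.adjoin_toSubalgebra_of_isAlgebraic (by
      rintro _ ⟨c, rfl⟩
      exact (h.int c).isAlgebraic), h.adj]
    trivial
  have h2 : x ∈ Algebra.adjoin C (range (algebraMap K K')) := by
    induction h1 using Algebra.adjoin_induction with
    | mem x hx => obtain ⟨c, rfl⟩ := hx; exact Subalgebra.algebraMap_mem _ c
    | algebraMap r => exact Algebra.subset_adjoin ⟨r, rfl⟩
    | add x y _ _ a b => exact add_mem a b
    | mul x y _ _ a b => exact mul_mem a b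
  have h3 : (Submonoid.closure (range (algebraMap K K')) : Set K') = range (algebraMap K K') :=
    congrArg _ (Submonoid.closure_eq (MonoidHom.mrange (algebraMap K K')))
  rw [← h3, ← Algebra.adjoin_eq_span]
  exact h2

theorem trdeg : Algebra.trdeg C K' = Algebra.trdeg L K := by
  have := h.isAlg
  have h1 := trdeg_add_eq L C (A := K')
  have h2 := trdeg_add_eq L K (A := K')
  rw [trdeg_eq_zero (R := L) (A := C), zero_add] at h1
  rw [trdeg_eq_zero (R := K) (A := K'), add_zero] at h2
  exact h1.trans h2.symm

theorem galois [IsAlgClosed C] [CharZero L] : IsGalois K K' := by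
  have := h.isAlg
  have : CharZero K := charZero_of_injective_algebraMap (algebraMap L K).injective
  have : Normal K K' := normal_iff.2 fun x => ⟨Algebra.IsIntegral.isIntegral x,
    IntermediateField.splits_of_mem_adjoin K K' (S := range (algebraMap C K')) (by
      rintro _ ⟨c, rfl⟩
      refine ⟨h.int c, ?_⟩
      have hL : IsIntegral L c := Algebra.IsIntegral.isIntegral c
      have hd := minpoly.dvd_map_of_isScalarTower L K (algebraMap C K' c)
      have hs : ((minpoly L (algebraMap C K' c)).map (algebraMap L K')).Splits := by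
        rw [IsScalarTower.algebraMap_eq L C K', ← Polynomial.map_map]
        exact (IsAlgClosed.splits _).map _
      refine hs.of_dvd (Polynomial.map_ne_zero (minpoly.ne_zero hL.algebraMap)) ?_
      rw [IsScalarTower.algebraMap_eq L K K', ← Polynomial.map_map]
      exact Polynomial.map_dvd _ hd) (h.adj ▸ IntermediateField.mem_top)⟩
  exact ⟨⟩

theorem extend (τ : C ≃ₐ[L] C) : ∃ σ : K' ≃+* K', (∀ f, σ (algebraMap K K' f) = algebraMap K K' f) ∧
    ∀ c, σ (algebraMap C K' c) = algebraMap C K' (τ c) := by
  let μ : C ⊗[L] K →ₐ[C] K' := Algebra.TensorProduct.lift (Algebra.ofId C K')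
    (IsScalarTower.toAlgHom L K K') fun _ _ => Commute.all _ _
  have m : ∀ c f, μ (c ⊗ₜ f) = algebraMap C K' c * algebraMap K K' f := fun c f => rfl
  have hi : Function.Injective μ := by
    let b := Module.Basis.ofVectorSpace L K
    refine LinearMap.injective_of_linearIndependent (f := μ.toLinearMap)
      (Algebra.TensorProduct.basis C b).span_eq ?_
    have : μ.toLinearMap ∘ Algebra.TensorProduct.basis C b = fun i => algebraMap K K' (b i) := by
      funext i
      simp [Algebra.TensorProduct.basis_apply, m]
    rw [this]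
    exact h.dis' b.linearIndependent
  have hs : Function.Surjective μ := fun x => by
    have : Submodule.span C (range (algebraMap K K')) ≤ LinearMap.range μ.toLinearMap :=
      Submodule.span_le.2 (by
        rintro _ ⟨f, rfl⟩
        exact ⟨1 ⊗ₜ f, by simp [m]⟩)
    exact this (h.span x)
  let e := RingEquiv.ofBijective μ.toRingHom ⟨hi, hs⟩
  have he : ∀ c f, e.symm (algebraMap C K' c * algebraMap K K' f) = c ⊗ₜ f := fun c f =>
    e.symm_apply_eq.2 (m c f).symm
  have k : ∀ c f, (e.symm.trans ((Algebra.TensorProduct.congr τ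
      (AlgEquiv.refl (R := L) (A₁ := K))).toRingEquiv.trans e))
      (algebraMap C K' c * algebraMap K K' f) = algebraMap C K' (τ c) * algebraMap K K' f :=
    fun c f => by
      rw [RingEquiv.trans_apply, he]
      exact m (τ c) f
  refine ⟨_, fun f => ?_, fun c => (congrArg _ (by simp)).trans ((k c 1).trans (by simp))⟩
  have := k 1 f
  rwa [map_one τ, map_one (algebraMap C K'), one_mul] at this

end BE

end

end Vale.Agent.P287D.Gf
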