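import Vale.Agent.P287D.Gf.St
import Vale.Agent.P287D.Gf.Abs
import Vale.Agent.P287D.Gm.Ffs
import Vale.Agent.P287D.Pb.Abh
import Vale.Agent.P287D.Iso.Bas

/-!
# P287D, block GF: existence, the Galois group
-/

set_option linter.all false

open Set Polynomial Cardinal

noncomputable section

namespace Vale.Agent.P287D

open Gf

variable {K K' : Type} [Field K] [Algebra ℂ K] [Field K'] [Algebra ℂ K']
  {L : IntermediateField ℂ K} {φ : K →+* K'} {n m r : ℕ}

/-- the map of the base to the constants -/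
def Ext.j (h : Ext L φ) : L →+* ℂ := h.exists_cst.choose

theorem Ext.j_spec (h : Ext L φ) (a : L) : algebraMap ℂ K' (h.j a) = φ a :=
  h.exists_cst.choose_spec a

theorem Ext.elim (h : Ext L φ) {p : Prop} (H : ∀ [Algebra K K'] [Algebra L ℂ]
    [IsScalarTower L ℂ K'], algebraMap K K' = φ → BE L K ℂ K' → p) : p := by
  letI : Algebra K K' := φ.toAlgebra
  letI : Algebra L ℂ := h.j.toAlgebra
  haveI : IsScalarTower L ℂ K' := IsScalarTower.of_algebraMap_eq fun a => (h.j_spec a).symm
  exact H rfl ⟨h.gen, h.dis⟩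

theorem GF.elim (h : GF L φ) {p : Prop} (H : ∀ [Algebra K K'] [Algebra L ℂ]
    [IsScalarTower L ℂ K'] [Algebra.IsAlgebraic L ℂ], algebraMap K K' = φ → BE L K ℂ K' → p) :
    p := by
  refine h.toExt.elim fun e b => ?_
  subst e
  haveI : Algebra.IsAlgebraic L ℂ := ⟨fun c => by
    obtain ⟨q, q0, hq⟩ := h.alg c
    refine ⟨q, q0, (algebraMap ℂ K').injective ?_⟩
    rw [← aeval_algebraMap_apply, map_zero]
    exact hq⟩
  exact H rfl b

theorem charZero_of (K : Type) [Field K] [Algebra ℂ K] : CharZero K :=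
  charZero_of_injective_algebraMap (algebraMap ℂ K).injective

theorem Ext.cld (h : Ext L φ) : Cld L := fun f hf => h.elim fun _ b => by
  obtain ⟨a, rfl⟩ := b.cld f hf
  exact a.2

theorem trdeg_sub (hL : FF L m) (hK : FF K (r + m)) : Algebra.trdeg L K = r := by
  have h := trdeg_add_eq ℂ L (A := K)
  rw [hL.trdeg, hK.trdeg, Nat.cast_add, add_comm] at h
  exact (Cardinal.add_nat_inj m).1 h

/-- **GEN.ff** -/
theorem Ext.ff (h : Ext L φ) (hL : FF L m) (hK : FF K (r + m)) : FF K' r := by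
  obtain ⟨y, hy⟩ := Gm.exists_basis L K (trdeg_sub hL hK)
  refine ⟨fun i => φ (y i), Pb.dis_alg h hy.1, ?_⟩
  set E := IntermediateField.adjoin ℂ (range fun i => φ (y i))
  have := hK.ess
  have := Algebra.EssFiniteType.of_comp ℂ L K
  obtain ⟨s, hs⟩ := (IntermediateField.fg_top_iff (F := L) (E := K)).2 this
  have hE : ∀ a : L, φ a ∈ E := fun a => h.j_spec a ▸ E.algebraMap_mem _
  have h1 : (IntermediateField.adjoin L (range y)).toSubfield ≤ E.toSubfield.comap φ :=
    Subfield.closure_le.2 (by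
      rintro _ (⟨a, rfl⟩ | ⟨i, rfl⟩)
      · exact hE a
      · exact IntermediateField.subset_adjoin _ _ ⟨i, rfl⟩)
  have h2 : ∀ f, IsAlgebraic E (φ f) := fun f =>
    (hy.isAlgebraic_field.isAlgebraic f).ringHom_of_comp_eq
      ((φ.comp (algebraMap (IntermediateField.adjoin L (range y)) K)).codRestrict E
        fun a => h1 a.2) φ (RingHom.injective _) rfl
  have h3 : IntermediateField.adjoin E (φ '' s) = ⊤ := by
    have k : (IntermediateField.adjoin L (s : Set K)).toSubfield ≤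
        (IntermediateField.adjoin E (φ '' s)).toSubfield.comap φ := Subfield.closure_le.2 (by
      rintro _ (⟨a, rfl⟩ | hf)
      · exact (IntermediateField.adjoin E (φ '' s)).algebraMap_mem ⟨_, hE a⟩
      · exact IntermediateField.subset_adjoin _ _ ⟨_, hf, rfl⟩)
    have k2 : Subfield.closure (range φ ∪ range (algebraMap ℂ K')) ≤
        (IntermediateField.adjoin E (φ '' s)).toSubfield := Subfield.closure_le.2 (by
      rintro _ (⟨f, rfl⟩ | ⟨c, rfl⟩)
      · exact k (hs ▸ IntermediateField.mem_top : f ∈ IntermediateField.adjoin L (s : Set K))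
      · exact (IntermediateField.adjoin E (φ '' s)).algebraMap_mem (algebraMap ℂ E c))
    exact eq_top_iff.2 fun x _ => k2 (h.gen ▸ Subfield.mem_top x)
  have : Finite (φ '' s) := (s.finite_toSet.image φ).to_subtype
  have h4 : FiniteDimensional E (IntermediateField.adjoin E (φ '' s)) :=
    IntermediateField.finiteDimensional_adjoin (by
      rintro _ ⟨f, -, rfl⟩
      exact (h2 f).isIntegral)
  rw [h3] at h4
  exact IntermediateField.topEquiv.toLinearEquiv.finiteDimensional

theorem FF.card (h : FF K n) : #K ≤ 𝔠 := by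
  obtain ⟨y, -, h⟩ := h
  refine (Algebra.IsAlgebraic.cardinalMk_le_max (IntermediateField.adjoin ℂ (range y)) K).trans
    (max_le ((IntermediateField.cardinalMk_adjoin_le ℂ _).trans (max_le (max_le mk_complex.le
      ((finite_range y).lt_aleph0.le.trans aleph0_le_continuum)) aleph0_le_continuum))
      aleph0_le_continuum)

theorem Gf.compositum {L K C : Type} [Field L] [Field K] [Field C] [Algebra L K] [Algebra L C]
    [Algebra.IsAlgebraic L C] : ∃ (K' : Type) (_ : Field K') (φ : K →+* K') (ι : C →+* K'),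
      (∀ a, φ (algebraMap L K a) = ι (algebraMap L C a)) ∧
      Subfield.closure (range φ ∪ range ι) = ⊤ := by
  let ι : C →ₐ[L] AlgebraicClosure K := IsAlgClosed.lift
  let S := Subfield.closure (range (algebraMap K (AlgebraicClosure K)) ∪ range ι)
  refine ⟨S, inferInstance, (algebraMap K _).codRestrict S fun f =>
    Subfield.subset_closure (Or.inl ⟨f, rfl⟩), ι.toRingHom.codRestrict S fun f =>
    Subfield.subset_closure (Or.inr ⟨f, rfl⟩), fun a => Subtype.ext (ι.commutes a).symm,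
    eq_top_iff.2 fun x _ => ?_⟩
  have := x.2
  refine (Subfield.mem_map.1 ?_ : ∃ y ∈ _, S.subtype y = x).elim fun y hy =>
    (Subtype.ext hy.2 : y = x) ▸ hy.1
  rw [RingHom.map_field_closure, image_union, ← range_comp, ← range_comp]
  exact x.2

theorem exists_gf (hL : Cld L) (hc : #L ≤ 𝔠) :
    ∃ (K' : Type) (_ : Field K') (_ : Algebra ℂ K') (φ : K →+* K'), GF L φ := by
  have := charZero_of L
  have h1 : 𝔠 ≤ #(AlgebraicClosure L) := mk_complex ▸ mk_le_of_injective
    ((algebraMap L (AlgebraicClosure L)).comp (algebraMap ℂ L)).injective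
  have h2 : #(AlgebraicClosure L) ≤ 𝔠 :=
    (Algebra.IsAlgebraic.cardinalMk_le_max L _).trans (max_le hc aleph0_le_continuum)
  obtain ⟨e⟩ := IsAlgClosed.ringEquiv_of_equiv_of_charZero (K := AlgebraicClosure L) (L := ℂ)
    (aleph0_lt_continuum.trans_le h1) (Cardinal.eq.1 ((le_antisymm h2 h1).trans mk_complex.symm))
  letI : Algebra L ℂ := (e.toRingHom.comp (algebraMap L _)).toAlgebra
  haveI : Algebra.IsAlgebraic L ℂ := ⟨fun c => by
    obtain ⟨c, rfl⟩ := e.surjective c
    exact (Algebra.IsAlgebraic.isAlgebraic c).ringHom_of_comp_eq (RingHom.id L) e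
      Function.injective_id rfl⟩
  obtain ⟨K', _, φ, ι, sq, gen⟩ := Gf.compositum (L := L) (K := K) (C := ℂ)
  letI : Algebra ℂ K' := ι.toAlgebra
  letI : Algebra K K' := φ.toAlgebra
  haveI : IsScalarTower L ℂ K' := IsScalarTower.of_algebraMap_eq sq
  refine ⟨K', inferInstance, inferInstance, φ, ⟨fun a ha => ⟨_, (sq ⟨a, ha⟩).symm⟩, gen,
    fun m v hv => ld (fun f hf => ⟨⟨f, hL f hf⟩, rfl⟩) hv⟩, fun c => ?_⟩
  obtain ⟨p, p0, hp⟩ := Algebra.IsAlgebraic.isAlgebraic (R := L) c
  refine ⟨p, p0, ?_⟩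
  have := aeval_algebraMap_apply K' c p
  rw [hp, map_zero] at this
  exact this

/-- **G1** -/
theorem g1 : G1 := fun _ _ _ _ hL ⟨_, h⟩ => exists_gf hL h.card

/-- **GEN.ex** -/
theorem gen_ex : ForK fun _ K _ _ => ∀ L : IntermediateField ℂ K, Cld L →
    ∃ (K' : Type) (_ : Field K') (_ : Algebra ℂ K') (φ : K →+* K'), GF L φ :=
  fun _ _ _ _ h L hL => exists_gf hL ((mk_le_of_injective (inc L).injective).trans h.card)

/-- **GEN.ff** -/
theorem gen_ff (m r : ℕ) : ForH fun K K' _ _ _ _ φ =>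
    ∀ L, Ext L φ → FF L m → FF K (r + m) → FF K' r := fun _ _ _ _ _ _ _ _ h => h.ff

namespace GF

variable (h : GF L φ)
include h

theorem span (x : K') : x ∈ Submodule.span ℂ (range φ) := h.elim fun e b => e ▸ b.span x

theorem fixed {f : K'} (hf : ∀ σ ∈ Gal φ, σ f = f) : f ∈ range φ := h.elim fun e b => by
  subst e
  have := charZero_of L
  have := b.galois
  exact (InfiniteGalois.mem_range_algebraMap_iff_fixed f).2 fun σ => hf σ.toRingEquiv σ.commutes

theorem orbit (f : K') : {g | ∃ σ ∈ Gal φ, g = σ f}.Finite := h.elim fun e b => by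
  subst e
  obtain ⟨p, p0, hp⟩ := b.isAlg.isAlgebraic f
  refine (p.rootSet_finite K').subset ?_
  rintro _ ⟨σ, hσ, rfl⟩
  refine mem_rootSet.2 ⟨p0, ?_⟩
  have := aeval_algHom_apply (AlgEquiv.ofRingEquiv (f := σ) hσ) f p
  rw [hp, map_zero] at this
  exact this

theorem extend (τ : ℂ ≃+* ℂ) (hτ : ∀ c, algebraMap ℂ K' c ∈ φ '' L → τ c = c) :
    ∃ σ ∈ Gal φ, ∀ c, σ (algebraMap ℂ K' c) = algebraMap ℂ K' (τ c) := h.elim fun e b => by
  subst e
  exact b.extend (AlgEquiv.ofRingEquiv (f := τ) fun a => hτ _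
    ⟨a, a.2, IsScalarTower.algebraMap_apply L ℂ K' a⟩)

/-- some power of a uniformizer; `K'` is algebraic over `K` -/
theorem poly (x : K') : ∃ p : K[X], p.Monic ∧ p.eval₂ φ x = 0 := h.elim fun e b =>
  e ▸ (b.isAlg.isAlgebraic x).isIntegral

end GF

theorem GFd.ff (h : GFd r m L φ) : FF K' m := h.toExt.ff h.fl (add_comm r m ▸ h.fk)

/-- **G1b** -/
theorem g1b : G1b := fun _ _ _ _ _ _ _ _ _ _ h =>
  ⟨h.ff, h.toExt.cld, fun _ hσ => ⟨_, (h.toGF.semi hσ).map_cst⟩, h.toGF.extend,
    fun _ => h.toGF.fixed, h.toGF.orbit⟩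

end Vale.Agent.P287D
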