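import Vale.Agent.P287D.St

/-!
# P287D, block GF: the geometric generic fibre (definitions and statements)
-/

open Set
open Vale.Agent.P297 (Place)

noncomputable section

namespace Vale.Agent.P287D

section defs

variable {K K' : Type} [Field K] [Algebra ℂ K] [Field K'] [Algebra ℂ K']

/-- `β` vanishes at the horizontal places -/
def Vt (L : IntermediateField ℂ K) (β : BD K) : Prop := ∀ Q, Hor L Q → β Q = 0

/-- the image of `L` in the residue field -/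
def Pl.im (Q : Pl K) (L : IntermediateField ℂ K) : IntermediateField ℂ Q.κ :=
  IntermediateField.adjoin ℂ (Q.rd '' (L : Set K))

/-- the algebraic closure of `L₀` in `K` -/
def cl (L₀ : IntermediateField ℂ K) : IntermediateField ℂ K :=
  (algebraicClosure L₀ K).restrictScalars ℂ

/-- the field of constants of the horizontal place `Q` -/
def Pl.cf (Q : Pl K) (L : IntermediateField ℂ K) : IntermediateField ℂ Q.κ := cl (Q.im L)

/-- the degree of the field of constants -/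
def Pl.dg (Q : Pl K) (L : IntermediateField ℂ K) : ℕ := (Q.im L).relfinrank (Q.cf L)

/-- invariant b-divisors -/
def Inv (φ : K →+* K') (β : BD K') : Prop := ∀ σ ∈ Gal φ, pb (σ : K' →+* K') β = β

/-- the list `β` followed by the list `H` -/
def ap {X : Type} {r : ℕ} : ∀ m : ℕ, (Fin m → X) → (Fin r → X) → Fin (r + m) → X
  | 0, _, H => H
  | m + 1, β, H => Fin.cons (β 0) (ap m (Fin.tail β) H)

/-- a geometric generic fibre of dimension `m` over a base of dimension `r` -/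
structure GFd (r m : ℕ) (L : IntermediateField ℂ K) (φ : K →+* K') : Prop extends GF L φ where
  fk : FF K (r + m)
  fl : FF L r

end defs

/-- a statement for all generic fibres -/
def ForG (S : ∀ (r m : ℕ) (K K' : Type) [Field K] [Algebra ℂ K] [Field K'] [Algebra ℂ K'],
    IntermediateField ℂ K → (K →+* K') → Prop) : Prop :=
  ∀ (r m : ℕ) (K K' : Type) [Field K] [Algebra ℂ K] [Field K'] [Algebra ℂ K']
    (L : IntermediateField ℂ K) (φ : K →+* K'), GFd r m L φ → S r m K K' L φ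

/-- **G1**: existence -/
def G1 : Prop := ∀ (K : Type) [Field K] [Algebra ℂ K] (L : IntermediateField ℂ K), Cld L →
  (∃ r, FF L r) → ∃ (K' : Type) (_ : Field K') (_ : Algebra ℂ K') (φ : K →+* K'), GF L φ

/-- **G1b**: the fibre is a function field, the Galois group -/
def G1b : Prop := ForG fun _ m K K' _ _ _ _ L φ => FF K' m ∧ Cld L ∧
  (∀ σ ∈ Gal φ, ∃ τ : ℂ ≃+* ℂ, ∀ c, σ (algebraMap ℂ K' c) = algebraMap ℂ K' (τ c)) ∧
  (∀ τ : ℂ ≃+* ℂ, (∀ c, algebraMap ℂ K' c ∈ φ '' L → τ c = c) →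
    ∃ σ ∈ Gal φ, ∀ c, σ (algebraMap ℂ K' c) = algebraMap ℂ K' (τ c)) ∧
  (∀ f : K', (∀ σ ∈ Gal φ, σ f = f) → f ∈ range φ) ∧
  ∀ f : K', {g | ∃ σ ∈ Gal φ, g = σ f}.Finite

/-- **G2**: places -/
def G2 : Prop := ForG fun _ _ K K' _ _ _ _ L φ =>
  (∀ P : Pl K', ∃ Q, Lies φ P Q) ∧
  (∀ P Q, Lies φ P Q → Hor L Q ∧ (∀ f, P.ord (φ f) = Q.ord f) ∧ (∀ β, pb φ β P = β Q) ∧
    ∃ ψ, IsRd φ P Q ψ) ∧
  (∀ Q, Hor L Q → ∃ P, Lies φ P Q) ∧
  ∀ P P' Q, Lies φ P Q → Lies φ P' Q → ∃ σ ∈ Gal φ, Lies (σ : K' →+* K') P' P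

/-- **G2b**: residue fields, the number of the places above a horizontal place -/
def G2b : Prop := ForG fun r m K K' _ _ _ _ L φ => ∀ Q : Pl K, Hor L Q →
  {P | Lies φ P Q}.Finite ∧ {P | Lies φ P Q}.ncard = Q.dg L ∧
  (∀ P ψ, Lies φ P Q → IsRd φ P Q ψ → ∃ m', m = m' + 1 ∧ GFd r m' (Q.cf L) ψ) ∧
  (∀ P P' ψ ψ', Lies φ P Q → Lies φ P' Q → IsRd φ P Q ψ → IsRd φ P' Q ψ' →
    (∀ a ∈ Q.cf L, ∀ c, ψ a = algebraMap ℂ P.κ c → ψ' a = algebraMap ℂ P'.κ c) → P = P') ∧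
  ∀ j : Q.cf L →+* ℂ, (∀ a ∈ L, ∀ h, algebraMap ℂ K' (j ⟨Q.rd a, h⟩) = φ a) →
    ∃ P ψ, Lies φ P Q ∧ IsRd φ P Q ψ ∧ ∀ a : Q.cf L, ψ a = algebraMap ℂ P.κ (j a)

/-- **G3**: descent -/
def G3 : Prop := ForG fun _ _ K K' _ _ _ _ L φ =>
  (∀ β : BD K, pb φ β = 0 ↔ Vt L β) ∧
  (∀ β : BD K', Inv φ β ↔ ∃ γ, β = pb φ γ) ∧
  (∀ (β : BD K) (g : K'), Sec (pb φ β) g → g ∈ Submodule.span ℂ
    (φ '' {f | f ≠ 0 ∧ ∀ Q, Hor L Q → 0 ≤ (dv f + β) Q})) ∧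
  (∀ β : BD K', Inv φ β → β ∈ Car K' → ∃ γ ∈ Car K, β = pb φ γ) ∧
  (∀ β : BD K', Inv φ β → CarQ β → ∃ γ, CarQ γ ∧ β = pb φ γ) ∧
  (∀ β : BD K', Inv φ β → Smp β → ∃ γ, Smp γ ∧ β = pb φ γ) ∧
  (∀ β : BD K', Inv φ β → β ∈ Prn K' → ∃ γ ∈ Prn K, β = pb φ γ) ∧
  ∀ β : BD K, Eff (pb φ β) → ∃ γ ∈ Prn K, ∀ Q, Hor L Q → 0 ≤ (β + γ) Q

open Classical in
/-- **G3b**: vertical poles are bounded by a system of the base -/
def G3b : Prop := ∀ (n : ℕ) (K : Type) [Field K] [Algebra ℂ K] (L : IntermediateField ℂ K),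
  FF K n → ∀ β ∈ Car K, (∀ Q, Hor L Q → 0 ≤ β Q) →
    ∃ s : Finset K, (s : Set K) ⊆ L ∧ 1 ∈ s ∧ 0 ≤ β + mx s

/-- **G4**: the canonical class -/
def G4 : Prop := ForG fun r m K K' _ _ _ _ _ φ =>
  ∃ f : K', f ≠ 0 ∧ cn K' m = pb φ (cn K (r + m)) + dv f

/-- **G5**: intersection numbers -/
def G5 : Prop := ForG fun r m K K' _ _ _ _ L φ => ∀ (β : Fin m → BD K) (H : Fin r → BD L),
  (∀ i : Fin m, (i : ℕ) ≠ 0 → β i ∈ Car K) → (∀ j, H j ∈ Car L) →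
  I (r + m) K (ap m β fun j => pb (inc L) (H j)) = I r L H * I m K' fun i => pb φ (β i)

/-- **G6**: positivity over the base -/
def G6 : Prop := ForG fun r m K K' _ _ _ _ L φ => ∀ H : BD L, Smp H → Big H →
  (∀ β ∈ Car K, Eff (pb φ β) ↔ ∃ c : ℝ, Eff (β + c • pb (inc L) H)) ∧
  (∀ β ∈ Car K, Big (pb φ β) ↔ ∃ c : ℝ, Big (β + c • pb (inc L) H)) ∧
  (∀ β ∈ Car K, Psef (pb φ β) ↔ ∀ A, Big A → A ∈ Car K → ∃ c : ℝ, Big (β + A + c • pb (inc L) H)) ∧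
  ∀ Λ, Smp Λ → Dsc Λ (pb (inc L) H) → dim Λ = r + dim (pb φ Λ) ∧
    (∀ f : K, φ f ∈ fld (pb φ Λ) ↔ f ∈ fld Λ) ∧
    ∀ m' P Q, m = m' + 1 → Lies φ P Q → (On m' (pb φ Λ) P ↔ On (r + m') Λ Q)

end Vale.Agent.P287D
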