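import Vale.Agent.P287D.Gf.St
import Vale.Agent.P287D.Pb.Bas
import Vale.Agent.P287D.Va.Cone
import Vale.Agent.P287D.Cb.Fr

/-!
# P287D, block GF: residues, restriction of a pull back, linear equivalence in `I`
-/

set_option linter.unusedSectionVars false

open Set
open Vale.Agent.P297Z

noncomputable section

namespace Vale.Agent.P287D.Gx

variable {K K' : Type} [Field K] [Algebra ℂ K] [Field K'] [Algebra ℂ K'] {n m : ℕ}

theorem rd_of (P : Pl K) {f : K} (h : f ∈ P.ring) :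
    P.rd f = IsLocalRing.residue P.ring ⟨f, h⟩ := dif_pos h

theorem rd_cst (P : Pl K) (c : ℂ) : P.rd (algebraMap ℂ K c) = algebraMap ℂ P.κ c :=
  rd_of P (P.con c)

theorem rd_mul (P : Pl K) {f g : K} (h : f ∈ P.ring) (k : g ∈ P.ring) :
    P.rd (f * g) = P.rd f * P.rd g := by
  rw [rd_of P h, rd_of P k, rd_of P (mul_mem h k)]
  exact map_mul (IsLocalRing.residue P.ring) ⟨f, h⟩ ⟨g, k⟩

theorem rd_ne (P : Pl K) {f : K} (h : f ≠ 0) (k : P.ord f = 0) : f ∈ P.ring ∧ P.rd f ≠ 0 := by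
  obtain ⟨a, b⟩ := (Pl.ord_eq_zero_iff _ h).1 k
  refine ⟨a, left_ne_zero_of_mul_eq_one (b := P.rd f⁻¹) ?_⟩
  rw [← rd_mul P a b, mul_inv_cancel₀ h, ← map_one (algebraMap ℂ K), rd_cst, map_one]

/-- the residue map on the image of `φ` -/
def hr {φ : K →+* K'} {P : Pl K'} (h : ∀ f, φ f ∈ P.ring) : K →+* P.κ :=
  (IsLocalRing.residue P.ring).comp (φ.codRestrict P.ring h)

theorem hr_apply {φ : K →+* K'} {P : Pl K'} (h : ∀ f, φ f ∈ P.ring) (f : K) :
    hr h f = P.rd (φ f) := (rd_of P (h f)).symm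

theorem rd_lin {φ : K →+* K'} {P : Pl K'} {Q : Pl K} {ρ : Q.κ →+* P.κ} (h : IsRd φ P Q ρ)
    (k : ∀ c, φ (algebraMap ℂ K c) = algebraMap ℂ K' c) (c : ℂ) :
    ρ (algebraMap ℂ _ c) = algebraMap ℂ _ c := by
  rw [← rd_cst, h _ (Q.con c), k, rd_cst]

theorem res_car (hR : RES) (hK : FF K (n + 1)) (P : Pl K) {β : BD K} (h : β ∈ Car K) :
    res P β ∈ Car P.κ :=
  Car.ind (p := fun β => res P β ∈ Car P.κ) h
    (fun s _ => by rw [hR.sys n K hK]; exact mx_mem_Car _)
    (fun a b x y u v => by rw [hR.add n K hK P a x b y]; exact add_mem u v)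
    (fun c a x u => by rw [hR.smul n K hK P c a x]; exact Submodule.smul_mem _ c u)

/-- restriction commutes with pull back, up to linear equivalence -/
theorem rst (hR : RES) (hK : FF K (n + 1)) (hK' : FF K' (m + 1)) {φ : K →+* K'} (ok : Ok φ)
    {P : Pl K'} {Q : Pl K} {ψ : Q.κ →+* P.κ} (h : Lies φ P Q) (hψ : IsRd φ P Q ψ) (ok' : Ok ψ)
    {β : BD K} (hβ : β ∈ Car K) : res P (pb φ β) - pb ψ (res Q β) ∈ Prn P.κ := by
  classical
  refine Car.ind (p := fun β => res P (pb φ β) - pb ψ (res Q β) ∈ Prn P.κ) hβ (fun s _ => ?_)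
    (fun a b x y u v => ?_) (fun c a x u => ?_)
  · rw [ok.pb_mx, hR.sys m K' hK', hR.sys n K hK, ok'.pb_mx]
    have h0 : φ (Q.t ^ Q.mz s) ≠ 0 := (map_ne_zero φ).2 (zpow_ne_zero _ Q.t_ne)
    have h1 : P.t ^ P.mz (im φ s) ≠ 0 := zpow_ne_zero _ P.t_ne
    obtain ⟨u, w⟩ := rd_ne P (div_ne_zero h0 h1) (by
      rw [Pl.ord_div _ h0 h1, h.ord, P.ord_t_zpow, Q.ord_t_zpow, h.mz, sub_self])
    have e : im ψ (Q.rs s) = (P.rs (im φ s)).image
        (· * P.rd (φ (Q.t ^ Q.mz s) / P.t ^ P.mz (im φ s))) := by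
      rw [Pb.im_eq, Pl.rs, Pl.rs, Finset.image_image, Finset.image_image]
      refine Eq.trans ?_ (congrArg (Finset.image _) (Pb.im_eq φ s)).symm
      rw [Finset.image_image]
      refine Finset.image_congr fun f hf => ?_
      simp only [Function.comp]
      rw [hψ _ (Q.mem_ring_mz (Submodule.subset_span hf)), ← rd_mul P
        (P.mem_ring_mz (Submodule.subset_span (Pb.mem_im.2 ⟨f, hf, rfl⟩))) u, map_mul,
        mul_assoc, mul_div_cancel₀ _ h1]
    rw [e]
    by_cases z : Nz (P.rs (im φ s))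
    · rw [mx_image_mul z w, sub_sub_cancel]; exact dv_mem_Prn _
    · rw [mx_of_not z, mx_of_not, sub_zero]
      · exact zero_mem _
      · rintro ⟨_, a, b⟩
        obtain ⟨g, c, rfl⟩ := Finset.mem_image.1 a
        exact z ⟨g, c, left_ne_zero_of_mul b⟩
  · rw [pb_add, hR.add m K' hK' P _ (ok.car x) _ (ok.car y), hR.add n K hK Q a x b y, pb_add,
      add_sub_add_comm]
    exact add_mem u v
  · rw [pb_smul, hR.smul m K' hK' P c _ (ok.car x), hR.smul n K hK Q c a x, pb_smul, ← smul_sub]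
    exact Submodule.smul_mem _ c u

/-- intersection numbers depend on the linear equivalence classes only -/
theorem I_congr (hI : INT) (hM : MOD) (hK : FF K n) {β γ : Fin n → BD K} (hβ : ∀ i, β i ∈ Car K)
    (h : ∀ i, γ i - β i ∈ Prn K) : I n K γ = I n K β := by
  classical
  obtain _ | n := n
  · rfl
  have hγ : ∀ i, γ i ∈ Car K := fun i => by simpa using add_mem (Prn_le_Car (h i)) (hβ i)
  have b := (hM.isb n K hK).1
  have key : ∀ s : Finset (Fin (n + 1)), I _ K (s.piecewise γ β) = I _ K β := fun s => by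
    refine Finset.induction_on s (by simp) fun j s hj ih => ?_
    have c : ∀ i, s.piecewise γ β i ∈ Car K := fun i => by
      unfold Finset.piecewise; split_ifs; exacts [hγ i, hβ i]
    rw [Finset.piecewise_insert, ← add_sub_cancel (β j) (γ j), hI.add _ K hK _ j _ _ (b _ (hβ j))
      (b _ (Prn_le_Car (h j))) (fun i => b _ (c i)) (fun i _ => c i)
      (fun _ => ⟨hβ j, Prn_le_Car (h j)⟩), hI.prn _ K hK (Function.update _ j (γ j - β j)) j
      (fun i _ => ?_) (by simpa using h j), add_zero, ← ih,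
      ← Finset.piecewise_eq_of_notMem s γ β hj, Function.update_eq_self]
    by_cases e : i = j
    · subst e; simpa using Prn_le_Car (h i)
    · simpa [e] using c i
  simpa using key Finset.univ

end Vale.Agent.P287D.Gx
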