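import Vale.Agent.P287D.Gf.Key

/-!
# P287D, block GF: the places above a horizontal place
-/

set_option linter.all false

open Set Polynomial IsLocalRing
open Vale.Agent.P297Z

noncomputable section

namespace Vale.Agent.P287D

open Gf

variable {K K' : Type} [Field K] [Algebra ℂ K] [Field K'] [Algebra ℂ K']
  {L : IntermediateField ℂ K} {φ : K →+* K'} {n m r : ℕ} {Q : Pl K} {P P' : Pl K'}
  {ψ : Q.κ →+* P.κ} {ψ' : Q.κ →+* P'.κ}

namespace Gf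

theorem conj {F : Type} [Field F] (j j' : F →+* ℂ)
    (h : ∀ c, ∃ p : F[X], p ≠ 0 ∧ p.eval₂ j c = 0) (h' : ∀ c, ∃ p : F[X], p ≠ 0 ∧ p.eval₂ j' c = 0) :
    ∃ τ : ℂ ≃+* ℂ, ∀ a, τ (j a) = j' a := by
  have k : ∀ (C C' : Type) [Field C] [Field C'] [Algebra F C] [Algebra F C'] [IsAlgClosed C]
      [IsAlgClosed C'], Algebra.IsAlgebraic F C → Algebra.IsAlgebraic F C' →
      ∃ τ : C ≃+* C', ∀ a, τ (algebraMap F C a) = algebraMap F C' a := fun C C' _ _ _ _ a b c d =>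
    have : IsAlgClosure F C := ⟨a, c⟩
    have : IsAlgClosure F C' := ⟨b, d⟩
    ⟨IsAlgClosure.equiv F C C', (IsAlgClosure.equiv F C C').commutes⟩
  exact @k ℂ ℂ _ _ j.toAlgebra j'.toAlgebra _ _ (@Algebra.IsAlgebraic.mk _ _ _ _ j.toAlgebra h)
    (@Algebra.IsAlgebraic.mk _ _ _ _ j'.toAlgebra h')

theorem exists_j {A : Type} [CommRing A] (χ : A →+* K') (h : ∀ a, χ a ∈ range (algebraMap ℂ K')) :
    ∃ j : A →+* ℂ, ∀ a, algebraMap ℂ K' (j a) = χ a := by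
  choose σ hσ using h
  have hi := (algebraMap ℂ K').injective
  exact ⟨{ toFun := σ
           map_one' := hi (by simp [hσ])
           map_mul' := fun a b => hi (by simp [hσ])
           map_zero' := hi (by simp [hσ])
           map_add' := fun a b => hi (by simp [hσ]) }, hσ⟩

theorem mk_gf (hc : Cld L) (cst : ∀ a ∈ L, φ a ∈ range (algebraMap ℂ K'))
    (gen : Subfield.closure (range φ ∪ range (algebraMap ℂ K')) = ⊤)
    (alg : ∀ c : ℂ, ∃ p : L[X], p ≠ 0 ∧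
      p.eval₂ (φ.comp (algebraMap L K)) (algebraMap ℂ K' c) = 0) : GF L φ := by
  refine ⟨⟨cst, gen, fun m v hv => ?_⟩, alg⟩
  obtain ⟨j, hj⟩ := exists_j (φ.comp (inc L)) fun a => cst a a.2
  have := charZero_of L
  letI : Algebra K K' := φ.toAlgebra
  letI : Algebra L ℂ := j.toAlgebra
  haveI : IsScalarTower L ℂ K' := IsScalarTower.of_algebraMap_eq fun a => (hj a).symm
  haveI : Algebra.IsAlgebraic L ℂ := ⟨fun c => by
    obtain ⟨q, q0, hq⟩ := alg c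
    refine ⟨q, q0, (algebraMap ℂ K').injective ?_⟩
    rw [← aeval_algebraMap_apply, map_zero]
    exact hq⟩
  exact ld (fun f hf => ⟨⟨f, hc f hf⟩, rfl⟩) hv

theorem cld_cl (L : IntermediateField ℂ K) : Cld (cl L) := fun f hf => by
  have h1 : IsAlgebraic (algebraicClosure L K) f := hf
  exact mem_algebraicClosure_iff.2 (h1.restrictScalars L)

theorem mem_im (hQ : Hor L Q) {a : Q.κ} : a ∈ Q.im L ↔ a ∈ range (lK hQ) := by
  let e : L →ₐ[ℂ] Q.κ := { lK hQ with commutes' := fun _ => rfl }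
  refine ⟨fun k => ?_, fun ⟨b, hb⟩ => IntermediateField.subset_adjoin _ _
    ⟨b, b.2, (lK_apply hQ b).symm.trans hb⟩⟩
  have : Q.im L ≤ e.fieldRange := IntermediateField.adjoin_le_iff.2 (by
    rintro _ ⟨b, hb, rfl⟩
    exact ⟨⟨b, hb⟩, lK_apply hQ _⟩)
  exact this k

/-- the base is its image in the residue field -/
def eI (hQ : Hor L Q) : L ≃+* Q.im L :=
  RingEquiv.ofBijective ((lK hQ).codRestrict (Q.im L) fun a => (mem_im hQ).2 ⟨a, rfl⟩)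
    ⟨RingHom.injective _, fun a => let ⟨b, hb⟩ := (mem_im hQ).1 a.2; ⟨b, Subtype.ext hb⟩⟩

theorem im_le (Q : Pl K) (L : IntermediateField ℂ K) : Q.im L ≤ Q.cf L := fun a ha =>
  (algebraicClosure (Q.im L) Q.κ).algebraMap_mem ⟨a, ha⟩

/-- the map of the base to the constants of `Q` -/
def lC (hQ : Hor L Q) : L →+* Q.cf L :=
  (lK hQ).codRestrict (Q.cf L) fun a => im_le Q L ((mem_im hQ).2 ⟨a, rfl⟩)

theorem dg_eq (Q : Pl K) (L : IntermediateField ℂ K) :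
    Q.dg L = Module.finrank (Q.im L) (algebraicClosure (Q.im L) Q.κ) :=
  IntermediateField.relfinrank_eq_finrank_of_le (im_le Q L)

theorem isRd_rm (hP : Lies φ P Q) : IsRd φ P Q (Pb.rm hP) := fun f hf => by
  rw [Cb.rd_of hf, Cb.rd_of ((hP f).1 hf)]
  rfl

theorem rd_uniq {χ : Q.κ →+* P.κ} (h : IsRd φ P Q ψ) (h' : IsRd φ P Q χ) : ψ = χ :=
  RingHom.ext fun a => by
    obtain ⟨f, hf, rfl⟩ := Cb.rd_surj a
    rw [h f hf, h' f hf]

theorem rd_rep (hP : Lies φ P Q) (hψ : IsRd φ P Q ψ) {ι : Type} [Fintype ι] (c : ι → ℂ)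
    (o : ι → Q.ring) : P.rd (∑ i, c i • φ (o i)) = ∑ i, c i • ψ (Q.rd (o i)) := by
  have e : ∑ i, c i • φ (o i) = ((∑ i, ⟨_, P.con (c i)⟩ * ⟨_, (hP _).1 (o i).2⟩ : P.ring) : K') := by
    simp [Algebra.smul_def]
  rw [e, Cb.rd_of (Subtype.prop _), Subtype.coe_eta, map_sum]
  refine Finset.sum_congr rfl fun i _ => ?_
  rw [map_mul, Algebra.smul_def, hψ _ (o i).2, Cb.rd_of ((hP _).1 (o i).2)]
  rfl

theorem ord_of_rd {a : K'} (ha : a ∈ P.ring) (h : P.rd a ≠ 0) : a ≠ 0 ∧ P.ord a = 0 := by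
  rw [Ne, Cb.rd_eq_zero ha, Cb.mx_iff, not_or] at h
  exact ⟨h.1, le_antisymm (not_lt.1 h.2) (Pl.ord_nonneg_of_mem _ ha)⟩

theorem rd_ne {a : K'} (h : P.ring.valuation a = 1) : a ∈ P.ring ∧ P.rd a ≠ 0 := by
  have ha := (P.ring.valuation_le_one_iff _).1 h.le
  refine ⟨ha, ?_⟩
  rw [Cb.rd_of ha]
  exact (residue_ne_zero_iff_isUnit _).2 ((P.ring.valuation_eq_one_iff _).2 h)

theorem pos_dim (hK : FF K n) (Q : Pl K) : ∃ n', n = n' + 1 := by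
  obtain _ | n := n
  · have := Q.dvl
    rw [hK.trdeg] at this
    simp at this
  · exact ⟨n, rfl⟩

theorem ff_cf (hQ : Hor L Q) (hL : FF L r) (hκ : FF Q.κ n) : FF (Q.cf L) r := by
  obtain ⟨s, -, hs⟩ := Gm.ff_sub hκ (Q.cf L)
  letI : Algebra L (Q.cf L) := (lC hQ).toAlgebra
  haveI : IsScalarTower ℂ L (Q.cf L) := IsScalarTower.of_algebraMap_eq fun _ => rfl
  haveI : Algebra.IsAlgebraic L (Q.cf L) := ⟨fun a =>
    IsAlgebraic.of_ringHom_of_comp_eq (eI hQ) (algebraMap (Q.cf L) Q.κ)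
      (mem_algebraicClosure_iff.1 a.2) (eI hQ).surjective (RingHom.injective _) rfl⟩
  have := trdeg_add_eq ℂ L (A := Q.cf L)
  rw [hL.trdeg, hs.trdeg, trdeg_eq_zero (R := L), add_zero, Nat.cast_inj] at this
  exact this ▸ hs

end Gf

theorem Ext.hor (h : Ext L φ) (hP : Lies φ P Q) : Hor L Q := fun a ha =>
  (hP a).2 (h.j_spec ⟨a, ha⟩ ▸ P.con _)

theorem Ext.rd_lK (h : Ext L φ) (hψ : IsRd φ P Q ψ) (hQ : Hor L Q) (a : L) :
    ψ (lK hQ a) = algebraMap ℂ P.κ (h.j a) := by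
  rw [lK_apply, hψ _ (hQ a a.2), ← h.j_spec, Cb.rd_const]

namespace GF

variable (h : GF L φ)
include h

theorem alg_j (c : ℂ) : ∃ p : L[X], p ≠ 0 ∧ p.eval₂ h.toExt.j c = 0 := by
  obtain ⟨p, p0, hp⟩ := h.alg c
  refine ⟨p, p0, (algebraMap ℂ K').injective ?_⟩
  rw [hom_eval₂, map_zero, ← hp]
  exact congrArg (fun f => eval₂ f _ p) (RingHom.ext h.toExt.j_spec)

theorem alg_lC (hQ : Hor L Q) {j : Q.cf L →+* ℂ} (hj : ∀ a, j (lC hQ a) = h.toExt.j a) (c : ℂ) :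
    ∃ p : (Q.cf L)[X], p ≠ 0 ∧ p.eval₂ j c = 0 := by
  obtain ⟨p, p0, hp⟩ := h.alg_j c
  refine ⟨p.map (lC hQ), Polynomial.map_ne_zero p0, ?_⟩
  rw [eval₂_map, ← hp]
  exact congrArg (fun f => eval₂ f _ p) (RingHom.ext hj)

theorem below (hK : FF K' m) (P : Pl K') : ∃ Q, Lies φ P Q :=
  (h.toExt.ok hK P).resolve_left (h.not_trv P)

theorem above (hL : FF L r) (hQ : Hor L Q) : ∃ P, Lies φ P Q := by
  obtain ⟨V, hV⟩ := exists_over Q.ring φ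
  obtain ⟨P, rfl⟩ := h.exists_pl hQ hV hL
  exact ⟨P, hV⟩

theorem ord_fac (hP : Lies φ P Q) {x : K'} (x0 : x ≠ 0) : ∃ a ∈ RR φ Q, ∃ b ∈ RR φ Q,
    P.rd a ≠ 0 ∧ P.rd b ≠ 0 ∧ ∃ k : ℤ, x = φ Q.t ^ k * (a / b) ∧ P.ord x = k * P.ord (φ Q.t) := by
  obtain ⟨k, a, ha, b, hb, h1, h2, h3⟩ := h.fac (h.toExt.hor hP) hP x0
  obtain ⟨a1, a2⟩ := rd_ne h1
  obtain ⟨b1, b2⟩ := rd_ne h2
  obtain ⟨a3, a4⟩ := ord_of_rd a1 a2
  obtain ⟨b3, b4⟩ := ord_of_rd b1 b2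
  refine ⟨a, ha, b, hb, a2, b2, k, h3, ?_⟩
  rw [h3, Pl.ord_mul _ (zpow_ne_zero _ ((_root_.map_ne_zero φ).2 Q.t_ne)) (div_ne_zero a3 b3),
    Pl.ord_div _ a3 b3, a4, b4, Pl.ord_zpow]
  ring

theorem e_one (hP : Lies φ P Q) : P.ord (φ Q.t) = 1 := by
  obtain ⟨-, -, -, -, -, -, k, -, e⟩ := h.ord_fac hP P.t_ne
  rw [P.ord_t] at e
  exact Int.eq_one_of_mul_eq_one_left hP.e_pos.le e.symm

theorem ord_eq (hP : Lies φ P Q) (f : K) : P.ord (φ f) = Q.ord f := by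
  rw [hP.ord, h.e_one hP, one_mul]

theorem pb_eq (hP : Lies φ P Q) (β : BD K) : pb φ β P = β Q := by
  rw [hP.pb, h.e_one hP, Int.cast_one, one_mul]

/-- the residue fields form a geometric generic fibre -/
theorem res (hP : Lies φ P Q) (hψ : IsRd φ P Q ψ) : GF (Q.cf L) ψ := by
  have hQ := h.toExt.hor hP
  refine mk_gf (cld_cl _) (fun a ha => mem_range ?_) ?_ fun c => ?_
  · refine (mem_algebraicClosure_iff.1 ha).ringHom_of_comp_eq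
      (h.toExt.j.comp (eI hQ).symm.toRingHom) ψ (RingHom.injective _) (RingHom.ext fun b => ?_)
    obtain ⟨b, rfl⟩ := (eI hQ).surjective b
    exact (congrArg (fun z => algebraMap ℂ P.κ (h.toExt.j z)) ((eI hQ).symm_apply_apply b)).trans
      (h.toExt.rd_lK hψ hQ b).symm
  · rw [rd_uniq hψ (isRd_rm hP)]
    exact h.gen_rd hQ hP
  · obtain ⟨p, p0, hp⟩ := h.alg_j c
    refine ⟨p.map (lC hQ), Polynomial.map_ne_zero p0, ?_⟩
    have := congrArg (algebraMap ℂ P.κ) hp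
    rw [hom_eval₂, map_zero] at this
    rw [eval₂_map, ← this]
    exact congrArg (fun f => eval₂ f _ p) (RingHom.ext (h.toExt.rd_lK hψ hQ))

theorem j_lC (hP : Lies φ P Q) (hψ : IsRd φ P Q ψ) (hQ : Hor L Q) (a : L) :
    (h.res hP hψ).toExt.j (lC hQ a) = h.toExt.j a := (algebraMap ℂ P.κ).injective
  (((h.res hP hψ).toExt.j_spec _).trans (h.toExt.rd_lK hψ hQ a))

theorem inj (hP : Lies φ P Q) (hP' : Lies φ P' Q) (hψ : IsRd φ P Q ψ) (hψ' : IsRd φ P' Q ψ')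
    (e : ∀ a ∈ Q.cf L, ∀ c, ψ a = algebraMap ℂ P.κ c → ψ' a = algebraMap ℂ P'.κ c) : P = P' := by
  have key : ∀ y ∈ RR φ Q, P.rd y ≠ 0 → y ≠ 0 ∧ P'.ord y = 0 := fun y hy k => by
    refine ord_of_rd (RR_le hP' P'.con hy) fun k' => k ?_
    obtain ⟨n, c, o, rfl⟩ := RR_rep hy
    rw [rd_rep hP hψ]
    rw [rd_rep hP' hψ'] at k'
    have g := (h.res hP hψ).toExt
    have g' := (h.res hP' hψ').toExt
    letI : Algebra Q.κ P.κ := ψ.toAlgebra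
    letI : Algebra Q.κ P'.κ := ψ'.toAlgebra
    letI : Algebra (Q.cf L) ℂ := g.j.toAlgebra
    haveI : IsScalarTower (Q.cf L) ℂ P.κ := IsScalarTower.of_algebraMap_eq fun a =>
      (g.j_spec a).symm
    haveI : IsScalarTower (Q.cf L) ℂ P'.κ := IsScalarTower.of_algebraMap_eq fun a =>
      e a a.2 _ (g.j_spec a).symm
    exact BE.tr (L := Q.cf L) (K' := P'.κ) (K'' := P.κ) ⟨g'.gen, g'.dis⟩ c _ k'
  have o : ∀ x, x ≠ 0 → P.ord x = P'.ord x := fun x x0 => by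
    obtain ⟨a, ha, b, hb, h1, h2, k, h3, h4⟩ := h.ord_fac hP x0
    obtain ⟨a3, a4⟩ := key a ha h1
    obtain ⟨b3, b4⟩ := key b hb h2
    rw [h4, h3, Pl.ord_mul _ (zpow_ne_zero _ ((_root_.map_ne_zero φ).2 Q.t_ne))
      (div_ne_zero a3 b3), Pl.ord_div _ a3 b3, a4, b4, Pl.ord_zpow, h.e_one hP, h.e_one hP']
    ring
  refine Pl.ext_mem fun x => ?_
  by_cases x0 : x = 0
  · simp [x0, zero_mem]
  rw [← Pl.ord_nonneg_iff _ x0, ← Pl.ord_nonneg_iff _ x0, o x x0]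

theorem lies_gal {σ : K' ≃+* K'} (hσ : σ ∈ Gal φ) (hP : Lies φ P Q) :
    Lies φ ((h.semi hσ).pl P) Q := fun f => by
  rw [hP f, ← (h.semi hσ).mem_pl]
  exact iff_of_eq (congrArg (· ∈ ((h.semi hσ).pl P).ring) (hσ f))

theorem move (hP : Lies φ P Q) (hψ : IsRd φ P Q ψ) (hQ : Hor L Q) {j : Q.cf L →+* ℂ}
    (hj : ∀ a, j (lC hQ a) = h.toExt.j a) : ∃ σ ∈ Gal φ, ∃ (R : Pl K') (χ : Q.κ →+* R.κ),
      Lies (σ : K' →+* K') R P ∧ Lies φ R Q ∧ IsRd φ R Q χ ∧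
        ∀ a : Q.cf L, χ a = algebraMap ℂ R.κ (j a) := by
  obtain ⟨τ, hτ⟩ := conj _ j (h.alg_lC hQ (h.j_lC hP hψ hQ)) (h.alg_lC hQ hj)
  obtain ⟨σ, hσ, hs⟩ := h.extend τ (by
    rintro c ⟨a, ha, e⟩
    obtain rfl : h.toExt.j ⟨a, ha⟩ = c :=
      (algebraMap ℂ K').injective ((h.toExt.j_spec _).trans e)
    exact (congrArg τ (h.j_lC hP hψ hQ _).symm).trans ((hτ _).trans (hj _)))
  refine ⟨σ, hσ, (h.semi hσ).pl P, ((h.semi hσ).κ P).comp ψ, (h.semi hσ).lies P,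
    h.lies_gal hσ hP, fun f hf => ?_, fun a => ?_⟩
  · rw [RingHom.comp_apply, hψ f hf, Semi.κ_rd]
    exact congrArg _ (hσ f)
  · rw [RingHom.comp_apply, ← (h.res hP hψ).toExt.j_spec, Semi.κ_cst, ← hτ]
    exact congrArg _ ((algebraMap ℂ K').injective (((h.semi hσ).map_cst _).symm.trans (hs _)))

theorem trans (hP : Lies φ P Q) (hP' : Lies φ P' Q) :
    ∃ σ ∈ Gal φ, Lies (σ : K' →+* K') P' P := by
  have hQ := h.toExt.hor hP
  obtain ⟨σ, hσ, R, χ, h1, h2, h3, h4⟩ :=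
    h.move hP (isRd_rm hP) hQ (h.j_lC hP' (isRd_rm hP') hQ)
  obtain rfl : R = P' := h.inj h2 hP' h3 (isRd_rm hP') fun a ha c e => by
    rw [← (algebraMap ℂ R.κ).injective ((h4 ⟨a, ha⟩).symm.trans e)]
    exact ((h.res hP' (isRd_rm hP')).toExt.j_spec ⟨a, ha⟩).symm
  exact ⟨σ, hσ, h1⟩

theorem count (hL : FF L r) (hK : FF K n) (hQ : Hor L Q) :
    {P | Lies φ P Q}.Finite ∧ {P | Lies φ P Q}.ncard = Q.dg L := by
  obtain ⟨n, rfl⟩ := pos_dim hK Q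
  have := (Gm.ff_κ Q hK).ess
  have := Algebra.EssFiniteType.of_comp ℂ (Q.im L) Q.κ
  have := Gm.fin_algCl (Q.im L) Q.κ
  have := charZero_of (Q.im L)
  letI : Algebra (Q.im L) ℂ := (h.toExt.j.comp (eI hQ).symm.toRingHom).toAlgebra
  have a : ∀ b, algebraMap (Q.im L) ℂ (eI hQ b) = h.toExt.j b := fun b =>
    congrArg h.toExt.j ((eI hQ).symm_apply_apply b)
  let Φ : {P | Lies φ P Q} → (algebraicClosure (Q.im L) Q.κ →ₐ[Q.im L] ℂ) := fun P =>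
    { (h.res P.2 (isRd_rm P.2)).toExt.j with
      commutes' := fun b => by
        obtain ⟨b, rfl⟩ := (eI hQ).surjective b
        exact (h.j_lC P.2 (isRd_rm P.2) hQ b).trans (a b).symm }
  have s : ∀ (P : {P | Lies φ P Q}) (x : Q.cf L),
      Pb.rm P.2 (x : Q.κ) = algebraMap ℂ P.1.κ (Φ P x) :=
    fun P x => ((h.res P.2 (isRd_rm P.2)).toExt.j_spec x).symm
  have b : Function.Bijective Φ := by
    refine ⟨fun P P' e => Subtype.ext (h.inj P.2 P'.2 (isRd_rm P.2) (isRd_rm P'.2)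
      fun x hx c k => ?_), fun j => ?_⟩
    · rw [← (algebraMap ℂ P.1.κ).injective ((s P ⟨x, hx⟩).symm.trans k), e]
      exact s P' ⟨x, hx⟩
    · obtain ⟨P, hP⟩ := h.above hL hQ
      obtain ⟨σ, -, R, χ, -, h2, h3, h4⟩ := h.move hP (isRd_rm hP) hQ (j := j.toRingHom)
        fun b => (j.commutes (eI hQ b)).trans (a b)
      refine ⟨⟨R, h2⟩, AlgHom.ext fun x => (algebraMap ℂ R.κ).injective ?_⟩
      rw [← s ⟨R, h2⟩ x, ← rd_uniq h3 (isRd_rm h2)]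
      exact h4 x
  refine ⟨Finite.of_injective Φ b.1, ?_⟩
  rw [← Nat.card_coe_set_eq, Nat.card_congr (Equiv.ofBijective Φ b), dg_eq,
    Nat.card_eq_fintype_card, AlgHom.card]

end GF

theorem GFd.res (h : GFd r m L φ) (hP : Lies φ P Q) (hψ : IsRd φ P Q ψ) :
    ∃ m', m = m' + 1 ∧ GFd r m' (Q.cf L) ψ := by
  obtain ⟨m, rfl⟩ := pos_dim h.ff P
  have k : FF Q.κ (r + m) := Gm.ff_κ Q h.fk
  exact ⟨m, rfl, h.toGF.res hP hψ, k, ff_cf (h.toExt.hor hP) h.fl k⟩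

/-- **G2** -/
theorem g2 : G2 := fun _ _ _ _ _ _ _ _ _ _ h =>
  ⟨h.toGF.below h.ff, fun _ _ k => ⟨h.toExt.hor k, h.toGF.ord_eq k, h.toGF.pb_eq k, _, isRd_rm k⟩,
    fun _ => h.toGF.above h.fl, fun _ _ _ => h.toGF.trans⟩

/-- **G2b** -/
theorem g2b : G2b := fun _ _ _ _ _ _ _ _ _ _ h Q hQ =>
  ⟨(h.toGF.count h.fl h.fk hQ).1, (h.toGF.count h.fl h.fk hQ).2, fun _ _ => h.res,
    fun _ _ _ _ => h.toGF.inj, fun j hj => by
      obtain ⟨P, hP⟩ := h.toGF.above h.fl hQ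
      obtain ⟨-, -, R, χ, -, k⟩ := h.toGF.move hP (isRd_rm hP) hQ (j := j) fun a =>
        (algebraMap ℂ _).injective (by
          rw [h.toExt.j_spec, ← hj a a.2 (lK_apply hQ a ▸ (lC hQ a).2)]
          exact congrArg (fun z => algebraMap ℂ _ (j z)) (Subtype.ext (lK_apply hQ a)))
      exact ⟨R, χ, k⟩⟩

theorem GF.gfd (h : GF L φ) (hK : FF K n) : ∃ r m, n = r + m ∧ GFd r m L φ := by
  obtain ⟨r, hr, hL⟩ := Gm.ff_sub hK L
  obtain ⟨m, rfl⟩ := Nat.exists_eq_add_of_le hr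
  exact ⟨r, m, rfl, h, hK, hL⟩

/-- **GEN.orb** -/
theorem gen_orb (n : ℕ) : ForH fun K K' _ _ _ _ φ => ∀ L, GF L φ → FF K n →
    (∀ P : Pl K', ∃ Q, Lies φ P Q ∧ Hor L Q ∧ P.ord (φ Q.t) = 1) ∧
    ∀ Q : Pl K, Hor L Q → {P | Lies φ P Q}.Finite ∧ {P | Lies φ P Q}.Nonempty ∧
      ∀ P P', Lies φ P Q → Lies φ P' Q → ∃ σ ∈ Gal φ, Lies (σ : K' →+* K') P' P :=
  fun _ _ _ _ _ _ _ _ h hK => by
    obtain ⟨r, m, rfl, g⟩ := h.gfd hK
    exact ⟨fun P => (h.below g.ff P).imp fun _ k => ⟨k, h.toExt.hor k, h.e_one k⟩, fun _ hQ =>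
      ⟨(h.count g.fl hK hQ).1, h.above g.fl hQ, fun _ _ => h.trans⟩⟩

end Vale.Agent.P287D
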