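import Vale.Agent.P287D.Gf.Rs

/-!
# P287D, block GF: intersection numbers on the generic fibre (G5)
-/

open Set

noncomputable section

namespace Vale.Agent.P287D

namespace Gx

theorem fs {A B : Type} (f : A → B) (hf : ∀ b, (f ⁻¹' {b}).Finite) (u : B → ℝ) (v : A → ℝ)
    (h0 : ∀ b, b ∉ range f → u b = 0) (h : ∀ a, u (f a) = (f ⁻¹' {f a}).ncard * v a) :
    ∑ᶠ b, u b = ∑ᶠ a, v a := by
  classical
  have N : ∀ a, ((f ⁻¹' {f a}).ncard : ℝ) ≠ 0 := fun a =>
    Nat.cast_ne_zero.2 (ncard_ne_zero_of_mem (a := a) rfl (hf _))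
  have e : Function.support v = f ⁻¹' Function.support u := by
    ext a; simp [h, N a]
  by_cases k : (Function.support u).Finite
  · have k' : (Function.support v).Finite := e ▸ k.preimage' fun b _ => hf b
    rw [finsum_eq_sum _ k, finsum_eq_sum _ k', ← Finset.sum_fiberwise_of_maps_to (g := f)
      (t := k.toFinset) (fun a ha => by simpa [e] using ha)]
    refine Finset.sum_congr rfl fun b hb => ?_
    obtain ⟨a, rfl⟩ : b ∈ range f := by_contra fun z => (k.mem_toFinset.1 hb) (h0 b z)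
    have c : k'.toFinset.filter (f · = f a) = (hf (f a)).toFinset := by
      ext x
      simp only [Finset.mem_filter, Finite.mem_toFinset, e, mem_preimage, mem_singleton_iff,
        and_iff_right_iff_imp]
      exact fun z => z ▸ k.mem_toFinset.1 hb
    rw [c, Finset.sum_congr rfl (g := fun _ => v a), Finset.sum_const, nsmul_eq_mul,
      ← ncard_eq_toFinset_card _ (hf _), h]
    intro x hx
    have z : f x = f a := (hf _).mem_toFinset.1 hx
    exact mul_left_cancel₀ (N a) (by rw [← h a, ← z, h x])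
  · rw [finsum_of_infinite_support k, finsum_of_infinite_support fun k' => k ((k'.image f).subset
      fun b hb => ?_)]
    obtain ⟨a, rfl⟩ : b ∈ range f := by_contra fun z => hb (h0 b z)
    exact ⟨a, e ▸ hb, rfl⟩

section ap

variable {X Y : Type} {r : ℕ}

theorem ap_rel (R : X → Y → Prop) {H : Fin r → X} {H' : Fin r → Y} (k : ∀ j, R (H j) (H' j)) :
    ∀ (m : ℕ) (β : Fin m → X) (β' : Fin m → Y), (∀ i, R (β i) (β' i)) →
      ∀ i, R (ap m β H i) (ap m β' H' i)
  | 0, _, _, _ => k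
  | m + 1, _, _, h => Fin.cases (h 0) (ap_rel R k m _ _ fun i => h i.succ)

theorem ap_all {p : X → Prop} {H : Fin r → X} (k : ∀ j, p (H j)) {m : ℕ} {β : Fin m → X}
    (h : ∀ i, p (β i)) : ∀ i, p (ap m β H i) := ap_rel (fun a _ => p a) (H' := H) k m β β h

theorem ap_map (f : X → Y) (H : Fin r → X) {m : ℕ} (β : Fin m → X) :
    (fun i => f (ap m β H i)) = ap m (fun i => f (β i)) fun j => f (H j) :=
  funext (ap_rel (fun a b => f a = b) (fun _ => rfl) m _ _ fun _ => rfl)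

theorem ap_last (H : Fin r → X) : ∀ (m : ℕ) (β : Fin m → X), ∃ J : Finset (Fin (r + m)),
    J.card = r ∧ ∀ j ∈ J, ∃ k, ap m β H j = H k
  | 0, _ => ⟨Finset.univ, by simp, fun j _ => ⟨j, rfl⟩⟩
  | m + 1, β => by
    obtain ⟨J, a, b⟩ := ap_last H m (Fin.tail β)
    refine ⟨J.map (Fin.succEmb _), by simpa using a, fun j hj => ?_⟩
    obtain ⟨j, c, rfl⟩ := Finset.mem_map.1 hj
    exact b j c

end ap

variable {K K' : Type} [Field K] [Algebra ℂ K] [Field K'] [Algebra ℂ K'] {n m : ℕ}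

theorem isb (hM : MOD) (hK : FF K n) {β : Fin n → BD K} (h : ∀ j, β j ∈ Car K) (j : Fin n) :
    IsB (n - 1) (β j) := by
  obtain _ | n := n
  · exact j.elim0
  · exact (hM.isb n K hK).1 _ (h j)

theorem eq_top {L : IntermediateField ℂ K} (hK : FF K n) (hL : FF L n) (c : Cld L) : L = ⊤ := by
  obtain ⟨y, hy, -⟩ := hL
  refine eq_top_iff.2 fun f _ => c f ?_
  refine ((hK.basis (hy.map' (f := L.val) L.val.injective)).isAlgebraic.1 f
    ).tower_top_of_subalgebra_le (B := L.toSubalgebra) (Algebra.adjoin_le ?_)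
  rintro _ ⟨i, rfl⟩
  exact (y i).2

theorem pos_of_pl (hK : FF K n) (P : Pl K) : ∃ k, n = k + 1 := by
  obtain _ | n := n
  · have := P.dvl
    simp [hK.trdeg] at this
  · exact ⟨n, rfl⟩

theorem mem_im {L : IntermediateField ℂ K} {Q : Pl K} (a : L) : Q.rd a ∈ Q.im L :=
  IntermediateField.subset_adjoin _ _ ⟨a, a.2, rfl⟩

theorem im_le (L : IntermediateField ℂ K) (Q : Pl K) : Q.im L ≤ Q.cf L := fun a ha =>
  (algebraicClosure (Q.im L) Q.κ).algebraMap_mem ⟨a, ha⟩

/-- the degree of the constants of a horizontal place -/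
theorem deg_cf (hM : MOD) (hP : PB) {L : IntermediateField ℂ K} {Q : Pl K} (h : Hor L Q)
    (hL : FF L n) (hc : FF (Q.cf L) n) : ∃ j : L →+* Q.cf L, (∀ a, (j a : Q.κ) = Q.rd a) ∧ Ok j ∧
      ∀ H : Fin n → BD L, (∀ i, H i ∈ Car L) →
        I n (Q.cf L) (fun i => pb j (H i)) = Q.dg L * I n L H := by
  have h' : ∀ a, inc L a ∈ Q.ring := fun a => h a a.2
  let i : L →+* Q.im L := (hr h').codRestrict _ fun a => hr_apply h' a ▸ mem_im a
  let j : L →+* Q.cf L := (hr h').codRestrict _ fun a => im_le L Q (i a).2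
  have c : ∀ c, j (algebraMap ℂ L c) = algebraMap ℂ _ c := fun c =>
    Subtype.ext ((hr_apply h' _).trans (rd_cst Q c))
  refine ⟨j, hr_apply h', hP.lies n n _ _ j hL hc c, fun H hH => ?_⟩
  let _ := j.toAlgebra
  have : IsScalarTower ℂ L (Q.cf L) := .of_algebraMap_eq fun a => (c a).symm
  refine (hP.deg n L (Q.cf L) hL hc H (isb hM hL hH) fun k _ => hH k).trans ?_
  have s : Function.Surjective i := fun ⟨a, ha⟩ => by
    have : Q.im L ≤ (hr h').fieldRange.toIntermediateField fun c =>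
        ⟨algebraMap ℂ L c, (hr_apply h' _).trans (rd_cst Q c)⟩ :=
      IntermediateField.adjoin_le_iff.2 (by rintro _ ⟨a, ha, rfl⟩; exact ⟨⟨a, ha⟩, hr_apply h' _⟩)
    obtain ⟨b, rfl⟩ := this ha
    exact ⟨b, rfl⟩
  let E : Q.cf L ≃+* IntermediateField.extendScalars (im_le L Q) := RingEquiv.refl _
  rw [Pl.dg, IntermediateField.relfinrank_eq_finrank_of_le (im_le L Q),
    Algebra.finrank_eq_of_equiv_equiv (RingEquiv.ofBijective i ⟨i.injective, s⟩) E rfl]

end Gx

open Gx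

theorem g5 (hF : FFS) (hM : MOD) (hR : RES) (hI : INT) (hP : PB) (h1 : G1b) (h2 : G2)
    (h3 : G2b) : G5 := by
  intro r m
  induction m with
  | zero =>
    intro K K' _ _ _ _ L φ h β H _ hH
    obtain rfl := eq_top h.fk h.fl (h1 _ _ _ _ L φ h).2.1
    simpa [ap, I] using hP.deg r _ K h.fl h.fk H (isb hM h.fl hH) fun j _ => hH j
  | succ m ih =>
    intro K K' _ _ _ _ L φ h β H hβ hH
    obtain ⟨fk', -⟩ := h1 _ _ _ _ L φ h
    obtain ⟨a1, a2, a3, -⟩ := h2 _ _ _ _ L φ h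
    have ok : Ok φ := fun P => .inr (a1 P)
    have oL : Ok (inc L) := hP.lies _ _ _ _ _ h.fl h.fk fun _ => rfl
    have cβ : ∀ (Q : Pl K) (i : Fin m), res Q (β i.succ) ∈ Car Q.κ := fun Q i =>
      res_car hR h.fk Q (hβ _ (by simp))
    choose f hf using a1
    have e : ∀ Q, f ⁻¹' {Q} = {P | Lies φ P Q} := fun Q =>
      Set.ext fun P => ⟨fun z => z ▸ hf P, (hf P).uniq⟩
    change ∑ᶠ Q, β 0 Q * I (r + m) Q.κ (fun i => res Q (ap m (fun i => β i.succ) _ i)) =
      _ * ∑ᶠ P, pb φ (β 0) P * I m P.κ fun i => res P (pb φ (β i.succ))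
    rw [mul_finsum]
    refine fs f (fun Q => ?_) _ _ (fun Q hQ => ?_) fun P => ?_
    · by_cases z : Hor L Q
      · exact e Q ▸ (h3 _ _ _ _ L φ h Q z).1
      · exact e Q ▸ finite_empty.subset fun P k => z (a2 P Q k).1
    · have z : ¬ Hor L Q := fun z => let ⟨P, k⟩ := a3 Q z; hQ ⟨P, (hf P).uniq k⟩
      obtain ⟨Q₀, k⟩ := (oL Q).resolve_left fun k => z fun a ha => k ⟨a, ha⟩
      obtain ⟨r, rfl⟩ := pos_of_pl h.fl Q₀
      obtain ⟨ρ, hρ⟩ := hP.rd _ _ _ Q Q₀ k
      have f0 := hF.rsd r L h.fl Q₀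
      have f1 : FF Q.κ (r + 1 + m) := hF.rsd _ K h.fk Q
      have c := rd_lin hρ fun _ => rfl
      have o : Ok ρ := hP.lies _ _ _ _ ρ f0 f1 c
      have cH := fun j => res_car hR h.fl Q₀ (hH j)
      obtain ⟨J, a, b⟩ := ap_last (fun j => pb ρ (res Q₀ (H j))) m fun i => res Q (β i.succ)
      have cc := ap_all (p := (· ∈ Car Q.κ)) (fun j => o.car (cH j)) (cβ Q)
      rw [ap_map, I_congr hI hM f1 cc (ap_rel (fun a b => a - b ∈ Prn Q.κ)
        (fun j => rst hR h.fl h.fk oL k hρ o (hH j)) m _ _ fun i => by simp),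
        hP.low _ _ _ _ ρ f0 f1 c _ J (by omega) (fun j _ => cc j) fun j hj =>
          let ⟨i, z⟩ := b j hj; ⟨_, cH i, z⟩, mul_zero]
    · obtain ⟨z, -, b1, ψ, hψ⟩ := a2 P _ (hf P)
      obtain ⟨-, b2, b3, -⟩ := h3 _ _ _ _ L φ h _ z
      obtain ⟨_, ⟨⟩, g⟩ := b3 P ψ (hf P) hψ
      obtain ⟨j, j1, j2, j3⟩ := deg_cf hM hP z h.fl g.fl
      have o : Ok ψ := fun R => .inr ((h2 _ _ _ _ _ ψ g).1 R)
      have fP := hF.rsd _ K' fk' P
      have h' : ∀ a, inc L a ∈ (f P).ring := fun a => z a a.2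
      have e1 : ∀ k, res (f P) (pb (inc L) (H k)) = pb (inc ((f P).cf L)) (pb j (H k)) := fun k => by
        rw [hP.hor _ _ _ _ _ h.fl h.fk (fun _ => rfl) _ (hr h') h' (hr_apply h') _ (hH k),
          ← Ok.pb_comp (hP.lies _ _ _ _ _ g.fl g.fk fun _ => rfl)]
        exact congrArg (pb · _) (RingHom.ext fun a => (hr_apply h' a).trans (j1 a).symm)
      rw [ap_map, funext e1, ih _ _ _ ψ g _ _ (fun i _ => cβ _ i) fun k => j2.car (hH k), j3 H hH,
        e, b2, b1, I_congr hI hM fP (fun i => o.car (cβ _ i)) fun i =>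
          rst hR h.fk fk' ok (hf P) hψ o (hβ i.succ (by simp))]
      ring

end Vale.Agent.P287D
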