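import Vale.Agent.P287D.Gf.Res
import Vale.Agent.P287D.Va.Cone

/-!
# P287D, block GF: Galois descent
-/

set_option linter.all false

open Set
open Vale.Agent.P297Z

noncomputable section

namespace Vale.Agent.P287D

open Gf

variable {K K' : Type} [Field K] [Algebra ℂ K] [Field K'] [Algebra ℂ K']
  {L : IntermediateField ℂ K} {φ : K →+* K'} {n m r : ℕ} {β γ : BD K}

theorem Semi.span_mem {σ : K' →+* K'} (h : Semi σ) {S : Set K'}
    (hS : ∀ x ∈ S, σ x ∈ Submodule.span ℂ S) {z : K'} (hz : z ∈ Submodule.span ℂ S) :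
    σ z ∈ Submodule.span ℂ S := by
  induction hz using Submodule.span_induction with
  | mem x hx => exact hS x hx
  | zero => simp
  | add x y _ _ a b => rw [map_add]; exact add_mem a b
  | smul c x _ a => rw [h.map_smul]; exact Submodule.smul_mem _ _ a

theorem Gf.mx_prod {ι : Type} [Fintype ι] [DecidableEq ι] [DecidableEq K'] (σ : ι → K' →+* K')
    {s : Finset K'} (hs : Nz s) :
    mx ((Fintype.piFinset fun _ : ι => s).image fun a => ∏ i, σ i (a i)) =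
      ∑ i, mx (im (σ i) s) := by
  funext P
  have k : ∀ i, ∃ f ∈ s, f ≠ 0 ∧ P.mz (im (σ i) s) = -P.ord (σ i f) := fun i => by
    obtain ⟨f, hf, f0⟩ := hs
    obtain ⟨g, hg, g0, e⟩ := P.exists_mz (s := im (σ i) s)
      ⟨_, Pb.mem_im.2 ⟨f, hf, rfl⟩, (map_ne_zero _).2 f0⟩
    obtain ⟨g, hg', rfl⟩ := Pb.mem_im.1 hg
    exact ⟨g, hg', (map_ne_zero _).1 g0, e⟩
  choose f hf f0 e using k
  have n0 : ∀ i ∈ Finset.univ, σ i (f i) ≠ 0 := fun i _ => (map_ne_zero _).2 (f0 i)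
  rw [Finset.sum_apply, mx_apply, P.mz_eq (Finset.mem_image_of_mem
    (fun a : ι → K' => ∏ i, σ i (a i)) (Fintype.mem_piFinset.2 hf))
    (Finset.prod_ne_zero_iff.2 n0), P.ord_prod _ n0]
  · simp [mx_apply, e]
  · intro g hg g0
    obtain ⟨a, ha, rfl⟩ := Finset.mem_image.1 hg
    have a0 := Finset.prod_ne_zero_iff.1 g0
    rw [P.ord_prod _ n0, P.ord_prod _ a0]
    refine Finset.sum_le_sum fun i hi => ?_
    have := P.le_mz (Pb.mem_im.2 ⟨_, Fintype.mem_piFinset.1 ha i, rfl⟩) (a0 i hi)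
    rw [e] at this
    omega

namespace GF

variable (h : GF L φ)
include h

/-- averaging families -/
theorem avg (S : Finset K') : ∃ (ι : Type) (_ : Fintype ι) (_ : Nonempty ι) (σ : ι → K' ≃+* K'),
    (∀ i, σ i ∈ Gal φ) ∧ ∀ ρ ∈ Gal φ, ∃ e : ι ≃ ι, ∀ i, ∀ x ∈ S, ρ (σ i x) = σ (e i) x := by
  let T : Set (S → K') := {y | ∃ σ ∈ Gal φ, y = fun x : S => σ x}
  have hT : T.Finite := (Finite.pi' fun x : S => h.orbit x).subset (by
    rintro _ ⟨σ, hσ, rfl⟩ x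
    exact ⟨σ, hσ, rfl⟩)
  choose σ hσ e using fun y : T => y.2
  have := hT.to_subtype
  refine ⟨T, hT.fintype, ⟨⟨_, 1, one_mem _, rfl⟩⟩, σ, hσ, fun ρ hρ => ?_⟩
  let μ : T → T := fun y => ⟨fun x => ρ (y.1 x), ρ * σ y, mul_mem hρ (hσ y),
    funext fun x => congrArg ρ (congrFun (e y) x)⟩
  have i : Function.Injective μ := fun y z k => Subtype.ext (funext fun x =>
    ρ.injective (congrFun (congrArg Subtype.val k) x))
  exact ⟨Equiv.ofBijective μ (Finite.injective_iff_bijective.1 i), fun y x hx =>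
    (congrArg ρ (congrFun (e y) ⟨x, hx⟩).symm).trans (congrFun (e (μ y)) ⟨x, hx⟩)⟩

/-- **descent of subspaces** -/
theorem desc (W : Submodule ℂ K') (hW : ∀ σ ∈ Gal φ, ∀ g ∈ W, σ g ∈ W) {g : K'} (hg : g ∈ W) :
    g ∈ Submodule.span ℂ (φ '' {f | φ f ∈ W}) := by
  classical
  obtain ⟨T, hT, k⟩ := Submodule.mem_span_finite_of_mem_span (h.span g)
  induction T using Finset.induction_on generalizing g with
  | empty => simp only [Finset.coe_empty, Submodule.span_empty, Submodule.mem_bot] at k; simp [k]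
  | insert y T _ ih =>
    rw [Finset.coe_insert] at hT k
    rw [insert_subset_iff] at hT
    obtain ⟨⟨f, rfl⟩, hT⟩ := hT
    obtain ⟨a, z, hz, rfl⟩ := Submodule.mem_span_insert.1 k
    by_cases a0 : a = 0
    · exact ih hg hT (by simpa [a0] using hz)
    have e : a • φ f + z = a • (φ f + a⁻¹ • z) := by rw [smul_add, smul_inv_smul₀ a0]
    rw [e] at hg ⊢
    refine Submodule.smul_mem _ _ ?_
    rw [Submodule.smul_mem_iff _ a0] at hg
    have hz' := Submodule.smul_mem _ a⁻¹ hz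
    generalize a⁻¹ • z = w at hg hz'
    obtain ⟨ι, _, _, σ, hσ, hp⟩ := h.avg {φ f + w}
    have h1 : ∀ i, φ f + w - σ i (φ f + w) ∈ Submodule.span ℂ (φ '' {f | φ f ∈ W}) := fun i => by
      refine ih (sub_mem hg (hW _ (hσ i) _ hg)) hT ?_
      rw [map_add, hσ i f, add_sub_add_left_eq_sub]
      refine sub_mem hz' ((h.semi (hσ i)).span_mem (fun x hx => ?_) hz')
      obtain ⟨u, rfl⟩ := hT hx
      exact Submodule.subset_span (((hσ i u).symm ▸ hx : σ i (φ u) ∈ (T : Set K')))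
    obtain ⟨u, hu⟩ := h.fixed (f := ∑ i, σ i (φ f + w)) fun ρ hρ => by
      obtain ⟨e, he⟩ := hp ρ hρ
      rw [map_sum]
      exact Fintype.sum_equiv e _ _ fun i => he i _ (Finset.mem_singleton_self _)
    have h2 : ∑ i, σ i (φ f + w) ∈ Submodule.span ℂ (φ '' {f | φ f ∈ W}) :=
      Submodule.subset_span ⟨u, show φ u ∈ W from hu ▸ sum_mem fun i _ => hW _ (hσ i) _ hg, hu⟩
    have h3 := add_mem (sum_mem fun i (_ : i ∈ Finset.univ) => h1 i) h2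
    rw [Finset.sum_sub_distrib, sub_add_cancel, Finset.sum_const, ← Nat.cast_smul_eq_nsmul ℂ] at h3
    exact (Submodule.smul_mem_iff _ (Nat.cast_ne_zero.2 Finset.univ_nonempty.card_ne_zero)).1 h3

/-- descent of systems -/
theorem desc_sys {w : Finset K'}
    (hw : ∀ σ ∈ Gal φ, ∀ x ∈ w, σ x ∈ Submodule.span ℂ (w : Set K')) :
    ∃ u : Finset K, Submodule.span ℂ (w : Set K') = Submodule.span ℂ (im φ u : Set K') := by
  classical
  have e : Submodule.span ℂ (w : Set K') =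
      Submodule.span ℂ (φ '' {f | φ f ∈ Submodule.span ℂ (w : Set K')}) :=
    le_antisymm (fun g hg => h.desc _ (fun σ hσ g hg => (h.semi hσ).span_mem (hw σ hσ) hg) hg)
      (Submodule.span_le.2 (by rintro _ ⟨f, hf, rfl⟩; exact hf))
  obtain ⟨t, ht, e'⟩ := (Submodule.fg_span_iff_fg_span_finset_subset _).1
    (e ▸ Submodule.fg_span w.finite_toSet)
  obtain ⟨u, -, rfl⟩ := Finset.subset_set_image_iff.1 ht
  exact ⟨u, by rw [Pb.im_eq]; exact e.trans e'⟩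

theorem inv_pb (γ : BD K) : Inv φ (pb φ γ) := fun σ hσ => by
  rw [← (h.semi hσ).ok.pb_comp]
  exact congrArg (pb · γ) (RingHom.ext hσ)

/-- **the averaging operator** -/
theorem av (ok : Ok φ) (S : Finset K') : ∃ (N : ℕ) (A : BD K' →ₗ[ℝ] BD K'), 0 < N ∧
    (∀ β, Inv φ β → A β = (N : ℝ) • β) ∧ (∀ β, 0 ≤ β → 0 ≤ A β) ∧ (∀ β, Eff β → Eff (A β)) ∧
    (∀ s ⊆ S, ∃ u, A (mx s) = pb φ (mx u)) ∧ ∀ g ∈ S, ∃ f, A (dv g) = pb φ (dv f) := by
  classical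
  obtain ⟨ι, _, _, σ, hσ, hp⟩ := h.avg S
  have a : ∀ β, (∑ i, pbL (σ i : K' →+* K')) β = ∑ i, pb (σ i : K' →+* K') β := fun β =>
    LinearMap.sum_apply _ _ _
  refine ⟨Fintype.card ι, ∑ i, pbL (σ i : K' →+* K'), Fintype.card_pos, fun β hβ => ?_,
    fun β hβ => ?_, fun β hβ => ?_, fun s hs => ?_, fun g hg => ?_⟩
  · rw [a, Finset.sum_congr rfl fun i _ => hβ _ (hσ i), Finset.sum_const, Nat.cast_smul_eq_nsmul]
    rfl
  · rw [a]
    exact Finset.sum_nonneg fun i _ => pb_nonneg _ hβ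
  · rw [a]
    exact Eff.sum _ fun i _ => (h.semi (hσ i)).eff.2 hβ
  · rw [a, Finset.sum_congr rfl fun i _ => (h.semi (hσ i)).ok.pb_mx s]
    by_cases hz : Nz s
    · rw [← mx_prod _ hz]
      obtain ⟨u, hu⟩ := h.desc_sys (w := (Fintype.piFinset fun _ : ι => s).image
        fun a => ∏ i, (σ i : K' →+* K') (a i)) fun ρ hρ x hx => by
          obtain ⟨e, he⟩ := hp ρ hρ
          obtain ⟨b, hb, rfl⟩ := Finset.mem_image.1 hx
          have hb := Fintype.mem_piFinset.1 hb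
          refine Submodule.subset_span (Finset.mem_image.2 ⟨fun i => b (e.symm i),
            Fintype.mem_piFinset.2 fun i => hb _, ?_⟩)
          rw [map_prod]
          exact (Fintype.prod_equiv e _ _ fun i => by
            simp only [e.symm_apply_apply]; exact he i _ (hs (hb i))).symm
      exact ⟨u, by rw [ok.pb_mx]; exact mx_congr_span hu⟩
    · refine ⟨∅, ?_⟩
      rw [mx_empty, pb_zero]
      refine Finset.sum_eq_zero fun i _ => mx_of_not fun ⟨g, hg, g0⟩ => ?_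
      obtain ⟨g, hg', rfl⟩ := Pb.mem_im.1 hg
      exact hz ⟨g, hg', (map_ne_zero _).1 g0⟩
  · rw [a, Finset.sum_congr rfl fun i _ => (h.semi (hσ i)).ok.pb_dv g]
    by_cases g0 : g = 0
    · exact ⟨0, by simp [g0, pb_zero]⟩
    obtain ⟨f, hf⟩ := h.fixed (f := ∏ i, σ i g) fun ρ hρ => by
      obtain ⟨e, he⟩ := hp ρ hρ
      rw [map_prod]
      exact Fintype.prod_equiv e _ _ fun i => he i _ hg
    exact ⟨f, by rw [ok.pb_dv, hf, dv_prod _ fun i _ => (map_ne_zero _).2 g0]; rfl⟩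

theorem des_sum (ok : Ok φ) {ι : Type} (T : Finset ι) (c : ι → ℝ) (s : ι → Finset K')
    (hβ : Inv φ (∑ j ∈ T, c j • mx (s j))) : ∃ (N : ℕ) (u : ι → Finset K), 0 < N ∧
      ∑ j ∈ T, c j • mx (s j) = pb φ ((N : ℝ)⁻¹ • ∑ j ∈ T, c j • mx (u j)) := by
  classical
  obtain ⟨N, A, hN, h1, -, -, h2, -⟩ := h.av ok (T.biUnion s)
  choose! u hu using fun j (hj : j ∈ T) => h2 _ (Finset.subset_biUnion_of_mem s hj)
  refine ⟨N, u, hN, ?_⟩
  rw [pb_smul, eq_inv_smul_iff₀ (Nat.cast_ne_zero.2 hN.ne'), ← h1 _ hβ, map_sum, pb_sum]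
  exact Finset.sum_congr rfl fun j hj => by rw [map_smul, hu j hj, pb_smul]

theorem des_car (ok : Ok φ) {β : BD K'} (hβ : Inv φ β) (k : β ∈ Car K') :
    ∃ γ ∈ Car K, β = pb φ γ := by
  obtain ⟨l, rfl⟩ := mem_Car.1 k
  obtain ⟨N, u, -, e⟩ := h.des_sum ok l.support l id hβ
  exact ⟨_, Submodule.smul_mem _ _ (sum_mem fun j _ => Submodule.smul_mem _ _ (mx_mem_Car _)), e⟩

theorem des_smp (ok : Ok φ) {β : BD K'} (hβ : Inv φ β) (k : Smp β) :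
    ∃ γ, Smp γ ∧ β = pb φ γ := by
  obtain ⟨l, hl, rfl⟩ := k
  obtain ⟨N, u, -, e⟩ := h.des_sum ok l.support l id hβ
  exact ⟨_, (Smp.sum _ fun j _ => (smp_mx _).smul (hl j)).smul (by positivity), e⟩

theorem des_carQ (ok : Ok φ) {β : BD K'} (hβ : Inv φ β) (k : CarQ β) :
    ∃ γ, CarQ γ ∧ β = pb φ γ := by
  obtain ⟨M, hM, k⟩ := k
  obtain ⟨s, u, -, -, e⟩ := mem_CarZ.1 k
  have M0 : (M : ℝ) ≠ 0 := Nat.cast_ne_zero.2 hM.ne'
  have e' : β = ∑ j, ![(M : ℝ)⁻¹, -(M : ℝ)⁻¹] j • mx (![s, u] j) := by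
    rw [Fin.sum_univ_two]
    simp only [Matrix.cons_val_zero, Matrix.cons_val_one, neg_smul]
    rw [← sub_eq_add_neg, ← smul_sub, ← e, inv_smul_smul₀ M0]
  obtain ⟨N, v, -, k⟩ := h.des_sum ok _ _ _ (e' ▸ hβ)
  refine ⟨_, ?_, e'.trans k⟩
  rw [Fin.sum_univ_two]
  simpa using (((carQ_mx (v 0)).qsmul (M : ℚ)⁻¹).add
    ((carQ_mx (v 1)).qsmul (-(M : ℚ)⁻¹))).qsmul (N : ℚ)⁻¹

theorem av_prn (ok : Ok φ) {Z : BD K'} (k : Z ∈ Prn K') : ∃ (N : ℕ) (A : BD K' →ₗ[ℝ] BD K'),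
    0 < N ∧ (∀ β, Inv φ β → A β = (N : ℝ) • β) ∧ (∀ β, 0 ≤ β → 0 ≤ A β) ∧
      ∃ γ ∈ Prn K, A Z = pb φ γ := by
  obtain ⟨T, a, -, rfl⟩ := mem_Prn.1 k
  obtain ⟨N, A, hN, h1, h2, -, -, h3⟩ := h.av ok T
  choose! f hf using h3
  refine ⟨N, A, hN, h1, h2, ∑ g ∈ T, a g • dv (f g),
    sum_mem fun g _ => Submodule.smul_mem _ _ (dv_mem_Prn _), ?_⟩
  rw [map_sum, pb_sum]
  exact Finset.sum_congr rfl fun j hj => by rw [map_smul, hf j hj, pb_smul]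

theorem des_prn (ok : Ok φ) {β : BD K'} (hβ : Inv φ β) (k : β ∈ Prn K') :
    ∃ γ ∈ Prn K, β = pb φ γ := by
  obtain ⟨N, A, hN, h1, -, γ, hγ, e⟩ := h.av_prn ok k
  refine ⟨(N : ℝ)⁻¹ • γ, Submodule.smul_mem _ _ hγ, ?_⟩
  rw [pb_smul, eq_inv_smul_iff₀ (Nat.cast_ne_zero.2 hN.ne'), ← h1 _ hβ, e]

theorem des_eff (ok : Ok φ) (k : Eff (pb φ β)) : ∃ γ ∈ Prn K, 0 ≤ pb φ (β + γ) := by
  obtain ⟨Z, hZ, k⟩ := eff_iff.1 k
  obtain ⟨N, A, hN, h1, h2, γ, hγ, e⟩ := h.av_prn ok hZ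
  refine ⟨(N : ℝ)⁻¹ • γ, Submodule.smul_mem _ _ hγ, ?_⟩
  have := smul_nonneg (show 0 ≤ (N : ℝ)⁻¹ by positivity) (h2 _ k)
  rwa [map_add, h1 _ (h.inv_pb β), e, smul_add, inv_smul_smul₀ (Nat.cast_ne_zero.2 hN.ne'),
    ← pb_smul, ← pb_add] at this

theorem des_sec (ok : Ok φ) {g : K'} (k : Sec (pb φ β) g) :
    g ∈ Submodule.span ℂ (φ '' {f | f ≠ 0 ∧ 0 ≤ pb φ (dv f + β)}) := by
  refine Submodule.span_le.2 ?_ (h.desc (H0 (pb φ β)) (fun σ hσ g hg => mem_H0.2 ?_) (mem_H0.2 k))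
  · rintro _ ⟨f, hf, rfl⟩
    by_cases f0 : f = 0
    · simp [f0]
    refine Submodule.subset_span ⟨f, ⟨f0, ?_⟩, rfl⟩
    rw [pb_add, ok.pb_dv]
    exact (mem_H0.1 hf).resolve_left ((map_ne_zero _).2 f0)
  · rw [← h.inv_pb β σ hσ]
    exact (h.semi hσ).sec.2 (mem_H0.1 hg)

end GF

namespace GFd

variable (h : GFd r m L φ)
include h

theorem ok : Ok φ := h.toExt.ok h.ff

theorem pb_le : pb φ β ≤ pb φ γ ↔ ∀ Q, Hor L Q → β Q ≤ γ Q := by
  refine ⟨fun k Q hQ => ?_, fun k P => ?_⟩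
  · obtain ⟨P, hP⟩ := h.toGF.above h.fl hQ
    rw [← h.toGF.pb_eq hP β, ← h.toGF.pb_eq hP γ]
    exact k P
  · obtain ⟨Q, hP⟩ := h.toGF.below h.ff P
    rw [h.toGF.pb_eq hP, h.toGF.pb_eq hP]
    exact k Q (h.toExt.hor hP)

theorem pb_nonneg : 0 ≤ pb φ β ↔ ∀ Q, Hor L Q → 0 ≤ β Q := by
  rw [← pb_zero φ]
  exact h.pb_le

theorem pb_eq : pb φ β = pb φ γ ↔ ∀ Q, Hor L Q → β Q = γ Q :=
  ⟨fun k Q hQ => le_antisymm (h.pb_le.1 k.le Q hQ) (h.pb_le.1 k.ge Q hQ), fun k =>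
    le_antisymm (h.pb_le.2 fun Q hQ => (k Q hQ).le) (h.pb_le.2 fun Q hQ => (k Q hQ).ge)⟩

theorem pb_eq_zero : pb φ β = 0 ↔ Vt L β := by
  rw [← pb_zero φ]
  exact h.pb_eq

theorem inv_iff {β : BD K'} : Inv φ β ↔ ∃ γ, β = pb φ γ := by
  classical
  refine ⟨fun k => ⟨fun Q => if e : ∃ P, Lies φ P Q then β e.choose else 0, funext fun P => ?_⟩,
    fun ⟨γ, e⟩ => e ▸ h.toGF.inv_pb γ⟩
  obtain ⟨Q, hP⟩ := h.toGF.below h.ff P
  have e : ∃ P, Lies φ P Q := ⟨P, hP⟩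
  obtain ⟨σ, hσ, l⟩ := h.toGF.trans e.choose_spec hP
  rw [h.toGF.pb_eq hP, dif_pos e, ← congrFun (k σ hσ) P, (h.toGF.semi hσ).lies_iff.1 l,
    Semi.pb_pl]

end GFd

/-- **G3** -/
theorem g3 : G3 := fun _ _ _ _ _ _ _ _ _ _ h =>
  ⟨fun _ => h.pb_eq_zero, fun _ => h.inv_iff, fun _ _ k => by
    simpa only [h.pb_nonneg] using h.toGF.des_sec h.ok k, fun _ => h.toGF.des_car h.ok,
    fun _ => h.toGF.des_carQ h.ok, fun _ => h.toGF.des_smp h.ok, fun _ => h.toGF.des_prn h.ok,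
    fun _ k => by simpa only [h.pb_nonneg] using h.toGF.des_eff h.ok k⟩

end Vale.Agent.P287D
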