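import Vale.Agent.P287D.Gf.Des
import Vale.Agent.P287D.Cb.Row
import Vale.Agent.P287D.Va.Dsc

/-!
# P287D, block GF: the canonical class, vertical poles
-/

set_option linter.all false

open Set Pointwise
open Vale.Agent.P297Z

noncomputable section

namespace Vale.Agent.P287D

variable {K : Type} [Field K] [Algebra ℂ K] {L : IntermediateField ℂ K} {n : ℕ} {β γ : BD K}

/-- **GEN.can** -/
theorem gen_can (m r : ℕ) : ForH fun K K' _ _ _ _ φ => ∀ L, GF L φ → FF L m → FF K (r + m) →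
    ∃ f : K', f ≠ 0 ∧ cn K' r + dv f = pb φ (cn K (r + m)) := fun _ _ _ _ _ _ _ _ h hL hK =>
  Cb.gen_can_of h hL hK (h.toExt.ff hL hK) fun P =>
    (h.below (h.toExt.ff hL hK) P).imp fun _ k => ⟨k, h.e_one k⟩

/-- **G4** -/
theorem g4 : G4 := fun r m _ _ _ _ _ _ L φ h => by
  obtain ⟨f, f0, e⟩ := gen_can r m _ _ φ L h.toGF h.fl (add_comm r m ▸ h.fk)
  exact ⟨f⁻¹, inv_ne_zero f0, by rw [add_comm r m, ← e, dv_inv, add_neg_cancel_right]⟩

namespace Gf

/-- bounded by a system of the base -/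
def Lb (L : IntermediateField ℂ K) (β : BD K) : Prop :=
  ∃ s : Finset K, (s : Set K) ⊆ L ∧ 1 ∈ s ∧ β ≤ mx s

theorem Lb.add (h : Lb L β) (h' : Lb L γ) : Lb L (β + γ) := by
  classical
  obtain ⟨s, a, b, c⟩ := h
  obtain ⟨u, d, e, f⟩ := h'
  refine ⟨s * u, fun x hx => ?_, one_mul (1 : K) ▸ Finset.mul_mem_mul b e, ?_⟩
  · obtain ⟨y, hy, z, hz, rfl⟩ := Finset.mem_mul.1 hx
    exact mul_mem (a hy) (d hz)
  · rw [mx_mul ⟨1, b, one_ne_zero⟩ ⟨1, e, one_ne_zero⟩]
    exact add_le_add c f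

theorem Lb.zero : Lb L 0 :=
  ⟨{1}, by simp [one_mem], Finset.mem_singleton_self _, mx_nonneg (Finset.mem_singleton_self _)⟩

theorem Lb.nsmul (h : Lb L β) (k : ℕ) : Lb L ((k : ℝ) • β) := by
  induction k with
  | zero => simpa using Lb.zero
  | succ k ih => rw [Nat.cast_succ, add_smul, one_smul]; exact ih.add h

theorem lb_dv {a : K} (ha : a ∈ L) : Lb L (dv a) := by
  classical
  refine ⟨{1, a⁻¹}, ?_, by simp, ?_⟩
  · simp [insert_subset_iff, one_mem, ha]
  · rw [mx_one_pair, dv_inv, neg_neg]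
    exact le_sup_right

/-- a vertical place lies over a proper subvariety of the base -/
theorem exists_vert {s : Finset K} (hs : IntermediateField.adjoin ℂ (s : Set K) = L) (h1 : 1 ∈ s)
    {P : Pl K} (hP : ¬ Hor L P) :
    ∃ D, 0 ≤ D ∧ 1 ≤ D P ∧ Lb L D ∧ ∀ Λ, Dsc Λ (mx s) → Dsc Λ D := by
  have sL : (s : Set K) ⊆ L := hs ▸ IntermediateField.subset_adjoin _ _
  obtain ⟨g, hg, g0, e⟩ := P.exists_mz ⟨1, h1, one_ne_zero⟩
  have nn := dv_add_mx_nonneg hg g0
  let A := Algebra.adjoin ℂ ((· / g) '' (s : Set K))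
  have hA : ∀ b ∈ A, b ∈ L ∧ ∃ m : ℕ, Sec ((m : ℝ) • (dv g + mx s)) b := fun b hb => by
    induction hb using Algebra.adjoin_induction with
    | mem x hx =>
      obtain ⟨f, hf, rfl⟩ := hx
      refine ⟨div_mem (sL hf) (sL hg), 1, ?_⟩
      rw [Nat.cast_one, one_smul, add_comm, sec_add_dv g0, div_mul_cancel₀ _ g0]
      exact sec_of_mem hf
    | algebraMap c =>
      refine ⟨L.algebraMap_mem c, 0, ?_⟩
      rw [Algebra.algebraMap_eq_smul_one]
      exact (sec_one.2 (by simp)).smul c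
    | add x y _ _ a b =>
      obtain ⟨a, i, hi⟩ := a
      obtain ⟨b, j, hj⟩ := b
      refine ⟨add_mem a b, i + j, (hi.mono ?_).add (hj.mono ?_)⟩ <;>
        exact smul_le_smul_of_nonneg_right (by simp) nn
    | mul x y _ _ a b =>
      obtain ⟨a, i, hi⟩ := a
      obtain ⟨b, j, hj⟩ := b
      exact ⟨mul_mem a b, i + j, by rw [Nat.cast_add, add_smul]; exact hi.mul hj⟩
  have z : (dv g + mx s) P = 0 := by simp [dv, mx, e]
  have : ∃ b ∈ A, b ≠ 0 ∧ 0 < P.ord b := by
    by_contra k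
    push Not at k
    have o : ∀ b ∈ A, P.ord b = 0 := fun b hb => by
      by_cases b0 : b = 0
      · simp [b0]
      obtain ⟨-, m, hm⟩ := hA b hb
      have := hm.resolve_left b0 P
      rw [Pi.add_apply, Pi.smul_apply, z, smul_zero, add_zero] at this
      exact le_antisymm (k b hb b0) (Int.cast_nonneg_iff.1 this)
    have m : ∀ f ∈ s, f / g ∈ IntermediateField.adjoin ℂ ((· / g) '' (s : Set K)) := fun f hf =>
      IntermediateField.subset_adjoin _ _ ⟨f, hf, rfl⟩
    have l : L ≤ IntermediateField.adjoin ℂ ((· / g) '' (s : Set K)) :=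
      hs ▸ IntermediateField.adjoin_le_iff.2 fun f hf => by
        have := div_mem (m f hf) (m 1 h1)
        rwa [div_div_div_cancel_right₀ g0, div_one] at this
    refine hP fun a ha => Cb.mem_ord ?_
    obtain ⟨x, hx, y, hy, rfl⟩ := IntermediateField.mem_adjoin_iff_div.1 (l ha)
    by_cases x0 : x = 0
    · simp [x0]
    by_cases y0 : y = 0
    · simp [y0]
    rw [Pl.ord_div _ x0 y0, o x hx, o y hy, sub_zero]
  obtain ⟨b, hb, b0, pb⟩ := this
  obtain ⟨bL, m, hm⟩ := hA b hb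
  refine ⟨_, hm.resolve_left b0, ?_, (lb_dv bL).add (((lb_dv (sL hg)).add
    ⟨s, sL, h1, le_rfl⟩).nsmul m), fun Λ k =>
      (Dsc.dv k.smp b).add (((Dsc.dv k.smp g).add k).smul m)⟩
  rw [Pi.add_apply, Pi.smul_apply, z, smul_zero, add_zero]
  exact Int.cast_one_le_of_pos pb

end Gf

open Gf

/-- **G3b** -/
theorem g3b (hM : MOD) (hN : NEG) : G3b := fun n K _ _ L hK β hβ h => by
  classical
  obtain _ | n := n
  · exact ⟨{1}, by simp [one_mem], Finset.mem_singleton_self _, fun P =>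
      let ⟨_, e⟩ := pos_dim hK P; absurd e (by omega)⟩
  obtain ⟨r, -, hL⟩ := Gm.ff_sub hK L
  obtain ⟨t, ht⟩ := IntermediateField.essFiniteType_iff.1 hL.ess
  have hs : IntermediateField.adjoin ℂ ((insert 1 t : Finset K) : Set K) = L := by
    rw [Finset.coe_insert, ← ht]
    exact le_antisymm (IntermediateField.adjoin_le_iff.2 (insert_subset (one_mem _)
      (IntermediateField.subset_adjoin _ _)))
      (IntermediateField.adjoin.mono _ _ _ (subset_insert _ _))
  obtain ⟨u, Γ, hT, -, -, hd, -⟩ := hM.ex n K hK ∅ {β, mx (insert 1 t)} finite_empty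
    (toFinite _) (by simp [insert_subset_iff, hβ, mx_mem_Car])
  have fin := (hM.isb n K hK).1 β hβ u hT.big
  have k : ∀ P : Pl K, ∃ D, 0 ≤ D ∧ 0 ≤ β P + D P ∧ Lb L D ∧ Dsc (mx u) D := fun P => by
    by_cases hP : Hor L P
    · exact ⟨0, le_rfl, by simpa using h P hP, Lb.zero, Dsc.zero hT.smp⟩
    obtain ⟨D, a, b, c, d⟩ := exists_vert hs (Finset.mem_insert_self _ _) hP
    obtain ⟨N, hN⟩ := exists_nat_ge (-β P)
    refine ⟨(N : ℝ) • D, smul_nonneg N.cast_nonneg a, ?_, c.nsmul N,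
      (d _ (hd _ (by simp))).smul N⟩
    have := mul_le_mul_of_nonneg_left b N.cast_nonneg
    rw [Pi.smul_apply, smul_eq_mul]
    linarith
  choose D a b c d using k
  obtain ⟨s, s1, s2, s3⟩ : Lb L (∑ P ∈ fin.toFinset, D P) :=
    Finset.sum_induction D (Lb L) (fun _ _ => Lb.add) Lb.zero fun P _ => c P
  refine ⟨s, s1, s2, le_trans (hN.nn n K hK (mx u) _ hT.smp hT.big
    ((hd β (by simp)).add (Dsc.sum hT.smp _ fun P _ => d P)) fun P hP => ?_).1
      (add_le_add_right s3 β)⟩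
  rw [Pi.add_apply, Finset.sum_apply]
  by_cases e : β P = 0
  · rw [e, zero_add]
    exact Finset.sum_nonneg fun Q _ => a Q P
  · exact (b P).trans (add_le_add_right (Finset.single_le_sum (f := fun Q => D Q P)
      (fun Q _ => a Q P) (fin.mem_toFinset.2 ⟨hP, e⟩)) _)

end Vale.Agent.P287D
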