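import Vale.Agent.P287D.Gf.Five
import Vale.Agent.P287D.Gf.One
import Vale.Agent.P287D.Pb.Res
import Vale.Agent.P287D.Va.Fld

/-!
# P287D, block GF: positivity over the base (G6)
-/

set_option linter.unusedSectionVars false

open Set Polynomial

noncomputable section

namespace Vale.Agent.P287D

namespace Gx

variable {K K' : Type} [Field K] [Algebra ℂ K] [Field K'] [Algebra ℂ K'] {n m r : ℕ}
  {φ : K →+* K'} {L : IntermediateField ℂ K}

theorem den (gen : Subfield.closure (range φ ∪ range (algebraMap ℂ K')) = ⊤) (u : Finset K') :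
    ∃ b : K', b ≠ 0 ∧ ∀ x ∈ u, x * b ∈ Submodule.span ℂ (range φ) := by
  classical
  obtain ⟨A, hA⟩ : ∃ A : Subalgebra ℂ K', A = Algebra.adjoin ℂ (range φ) := ⟨_, rfl⟩
  have sp : ∀ x ∈ A, x ∈ Submodule.span ℂ (range φ) := fun x hx => by
    have : Submonoid.closure (range φ) = MonoidHom.mrange φ := (MonoidHom.mrange φ).closure_eq
    rwa [hA, ← Subalgebra.mem_toSubmodule, Algebra.adjoin_eq_span, this] at hx
  have le : Subring.closure (range φ ∪ range (algebraMap ℂ K')) ≤ A.toSubring :=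
    Subring.closure_le.2 (union_subset (hA ▸ Algebra.subset_adjoin) (by
      rintro _ ⟨c, rfl⟩; exact A.algebraMap_mem c))
  suffices ∃ b ∈ A, b ≠ 0 ∧ ∀ x ∈ u, x * b ∈ A from
    let ⟨b, _, b2, b3⟩ := this; ⟨b, b2, fun x k => sp _ (b3 x k)⟩
  refine Finset.induction_on u ⟨1, one_mem _, one_ne_zero, by simp⟩ ?_
  rintro x u - ⟨b, b1, b2, b3⟩
  obtain ⟨y, hy, z, hz, rfl⟩ := Subfield.mem_closure_iff.1 (gen.ge (Subfield.mem_top x))
  have hy : y ∈ A := le hy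
  have hz : z ∈ A := le hz
  simp only [Finset.forall_mem_insert]
  by_cases z0 : z = 0
  · exact ⟨b, b1, b2, by simp [z0], b3⟩
  refine ⟨b * z, mul_mem b1 hz, mul_ne_zero b2 z0, ?_, fun x hx => ?_⟩
  · rw [mul_comm b, ← mul_assoc, div_mul_cancel₀ _ z0]
    exact mul_mem hy b1
  · rw [← mul_assoc]
    exact mul_mem (b3 x hx) hz

/-- every system is dominated by a pull back -/
theorem dom (gen : Subfield.closure (range φ ∪ range (algebraMap ℂ K')) = ⊤) (u : Finset K') :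
    ∃ (s : Finset K) (b : K'), mx u ≤ mx (im φ s) + dv b := by
  classical
  obtain ⟨b, b2, b3⟩ := den gen u
  by_cases z : Nz u
  swap
  · exact ⟨∅, 1, by simp [mx_of_not z, im]⟩
  choose c hc using fun x : u => Finsupp.mem_span_range_iff_exists_finsupp.1 (b3 x x.2)
  refine ⟨Finset.univ.biUnion fun x => (c x).support, b,
    mx_le z fun x k => (sec_add_dv b2).2 (sec_of_span ?_)⟩
  rw [← hc ⟨x, k⟩]
  exact Submodule.sum_mem _ fun i hi => Submodule.smul_mem _ _ (Submodule.subset_span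
    (Pb.mem_im.2 ⟨i, Finset.mem_biUnion.2 ⟨⟨x, k⟩, Finset.mem_univ _, hi⟩, rfl⟩))

theorem big_pb (ok : Ok φ) (gen : Subfield.closure (range φ ∪ range (algebraMap ℂ K')) = ⊤)
    {β : BD K} (h : Big β) : Big (pb φ β) := fun u => by
  obtain ⟨s, b, k⟩ := dom gen u
  obtain ⟨ε, a, e⟩ := h s
  have := ok.eff e
  rw [pb_sub, pb_smul, ok.pb_mx] at this
  refine ⟨ε, a, (this.add_prn (Submodule.smul_mem _ (-ε) (dv_mem_Prn b))).mono fun P => ?_⟩
  have := mul_le_mul_of_nonneg_left (k P) a.le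
  simp only [Pi.add_apply, Pi.sub_apply, Pi.smul_apply, smul_eq_mul] at this ⊢
  linarith

theorem pb_base (h : Ext L φ) (ok : Ok φ) (γ : BD L) : pb φ (pb (inc L) γ) = 0 := by
  rw [← ok.pb_comp]
  exact funext fun P => Trv.pb (fun a => (h.j_spec a) ▸ P.con _) γ

theorem absorb {A B X : BD K} {δ c : ℝ} (h0 : 0 < δ) (h : Eff (A - δ • B)) (hB : Eff B) :
    Eff ((1 + |c| / δ) • A - X - (A - X + c • B)) := by
  have := (h.smul (div_nonneg (abs_nonneg c) h0.le)).add (hB.smul (sub_nonneg.2 (le_abs_self c)))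
  refine this.mono (le_of_eq (funext fun P => ?_))
  simp only [Pi.add_apply, Pi.sub_apply, Pi.smul_apply, smul_eq_mul]
  field_simp
  ring

theorem trdeg_fib {F : IntermediateField ℂ K} {F' : IntermediateField ℂ K'} (h : Ext L φ)
    (le : L ≤ F) (h1 : ∀ f ∈ F, φ f ∈ F')
    (h2 : ∀ g ∈ F', ∃ p : F[X], p ≠ 0 ∧ p.eval₂ (φ.comp (inc F)) g = 0) :
    Algebra.trdeg ℂ F = Algebra.trdeg ℂ L + Algebra.trdeg ℂ F' := by
  let _ : Algebra L F := (IntermediateField.inclusion le).toAlgebra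
  have : IsScalarTower ℂ L F := .of_algebraMap_eq fun _ => rfl
  have : IsScalarTower L F K := .of_algebraMap_eq fun _ => rfl
  obtain ⟨β, y, hy⟩ := exists_isTranscendenceBasis' L F
  rw [← trdeg_add_eq ℂ L (A := F), ← hy.cardinalMk_eq_trdeg]
  have i := Pb.dis_alg h (hy.1.map' (f := IsScalarTower.toAlgHom L F K) Subtype.val_injective)
  refine congrArg _ (le_antisymm (AlgebraicIndependent.of_comp (x := fun i =>
    (⟨φ (y i), h1 _ (y i).2⟩ : F')) F'.val i).cardinalMk_le_trdeg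
    ((Pb.trdeg_le_of_alg F' (range fun i => φ (y i)) fun g hg => ?_).trans Cardinal.mk_range_le))
  obtain ⟨p, p0, hp⟩ := h2 g hg
  let M := Subalgebra.algebraicClosure (Algebra.adjoin ℂ (range fun i => φ (y i))) K'
  let ψ : F →+* M := (φ.comp (inc F)).codRestrict M fun f => Pb.alg_map (φ.comp (inc F))
    (fun a => (h.j_spec a) ▸ Subalgebra.algebraMap_mem _ _)
    (by rintro _ ⟨i, rfl⟩; exact Algebra.subset_adjoin ⟨i, rfl⟩) (hy.isAlgebraic.1 f)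
  have : IsAlgebraic M g := ⟨p.map ψ, (Polynomial.map_ne_zero_iff fun a b e =>
    (φ.comp (inc F)).injective (congrArg Subtype.val e)).2 p0, by
      rw [aeval_def, eval₂_map]; exact hp⟩
  exact this.restrictScalars _

theorem orbit_poly (h : GF L φ) {F : IntermediateField ℂ K} {F' : IntermediateField ℂ K'}
    (h1 : ∀ f, φ f ∈ F' → f ∈ F) (h2 : ∀ σ ∈ Gal φ, ∀ g ∈ F', σ g ∈ F') {g : K'} (hg : g ∈ F') :
    ∃ p : F[X], p ≠ 0 ∧ p.eval₂ (φ.comp (inc F)) g = 0 := by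
  classical
  let O := (h.orbit g).toFinset
  have o : ∀ {x}, x ∈ O ↔ ∃ σ ∈ Gal φ, x = σ g := (h.orbit g).mem_toFinset
  let P : K'[X] := ∏ a ∈ O, (X - C a)
  have a : P ∈ liftsRing (inc F') := Subring.prod_mem _ fun a ha => by
    obtain ⟨σ, k, rfl⟩ := o.1 ha
    exact sub_mem (X_mem_lifts _) (C'_mem_lifts ⟨⟨_, h2 σ k g hg⟩, rfl⟩)
  have b : ∀ σ ∈ Gal φ, P.map (σ : K' →+* K') = P := fun σ k => by
    simp only [P, Polynomial.map_prod, Polynomial.map_sub, map_X, map_C]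
    refine Finset.prod_nbij σ (fun x hx => ?_) σ.injective.injOn (fun x hx => ?_) fun _ _ => rfl
    · obtain ⟨τ, l, rfl⟩ := o.1 hx
      exact o.2 ⟨σ * τ, mul_mem k l, rfl⟩
    · obtain ⟨τ, l, rfl⟩ := o.1 hx
      exact ⟨_, o.2 ⟨σ⁻¹ * τ, mul_mem (inv_mem k) l, rfl⟩, σ.apply_symm_apply _⟩
  obtain ⟨p, hp⟩ := (mem_lifts P).1 ((lifts_iff_coeff_lifts (f := φ.comp (inc F)) P).2 fun i => by
    obtain ⟨f, e⟩ := h.fixed (f := P.coeff i) fun σ k => by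
      conv_rhs => rw [← b σ k, coeff_map]
      rfl
    obtain ⟨c, hc⟩ := (lifts_iff_coeff_lifts P).1 a i
    exact ⟨⟨f, h1 f (e ▸ hc ▸ c.2)⟩, e⟩)
  refine ⟨p, fun z => (monic_prod_X_sub_C id O).ne_zero (hp.symm.trans (by simp [z])), ?_⟩
  rw [eval₂_eq_eval_map, hp, eval_prod]
  exact Finset.prod_eq_zero (o.2 ⟨1, one_mem _, rfl⟩) (by simp)

theorem absorb_big {A B : BD K} {δ c : ℝ} (h0 : 0 < δ) (h : Eff (A - δ • B)) (hB : Eff B)
    (k : Big (A + c • B)) : Big A := by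
  refine .of_smul (c := 1 + |c| / δ) (by positivity) (k.of_sub (Eff.psef ?_))
  simpa using absorb (X := 0) h0 h hB

theorem pb_pld (ok : Ok φ) (f : K) : pb φ (pld f) = pld (φ f) := by
  classical
  rw [← mx_pld, ← mx_pld, ok.pb_mx, Pb.im_eq]
  simp

section

variable (h3 : G3) (h4 : G3b) (h : GFd r m L φ) {H : BD L} (hH : Big H)
include h3 h4 h hH

theorem eff_fib {β : BD K} (hβ : β ∈ Car K) :
    Eff (pb φ β) ↔ ∃ c : ℝ, Eff (β + c • pb (inc L) H) := by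
  classical
  have ok := h.toExt.ok h.ff
  have oL := h.fk.ok_sub L
  refine ⟨fun k => ?_, fun ⟨c, k⟩ => by
    simpa [pb_add, pb_smul, pb_base h.toExt ok] using ok.eff k⟩
  obtain ⟨γ, a, b⟩ := (h3 _ _ _ _ L φ h).2.2.2.2.2.2.2 β k
  obtain ⟨s, c, -, d⟩ := h4 _ K L h.fk _ (add_mem hβ (Prn_le_Car a)) b
  obtain ⟨ε, e, f⟩ := hH (s.subtype (· ∈ L))
  have g := (oL.eff f).smul (inv_nonneg.2 e.le)
  have i : im (inc L) (s.subtype (· ∈ L)) = s := Finset.subtype_map_of_mem c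
  rw [pb_sub, pb_smul, oL.pb_mx, i, smul_sub, inv_smul_smul₀ e.ne'] at g
  exact ⟨ε⁻¹, ((Eff.of_nonneg d).add g).congr (by simpa using neg_mem a)⟩

theorem big_fib {β : BD K} (hβ : β ∈ Car K) :
    Big (pb φ β) ↔ ∃ c : ℝ, Big (β + c • pb (inc L) H) := by
  have ok := h.toExt.ok h.ff
  refine ⟨fun k => ?_, fun ⟨c, k⟩ => by
    simpa [pb_add, pb_smul, pb_base h.toExt ok] using big_pb ok h.gen k⟩
  obtain ⟨s, -, a⟩ := exists_big h.fk
  obtain ⟨ε, b, e⟩ := k (im φ s)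
  rw [← ok.pb_mx, ← pb_smul, ← pb_sub] at e
  obtain ⟨c, e⟩ := (eff_fib h3 h4 h hH
    (sub_mem hβ (Submodule.smul_mem _ ε (mx_mem_Car s)))).1 e
  exact ⟨c, (a.smul b).of_sub (by rw [add_sub_right_comm]; exact e.psef)⟩

theorem psef_fib {β : BD K} (hβ : β ∈ Car K) : Psef (pb φ β) ↔
    ∀ A, Big A → A ∈ Car K → ∃ c : ℝ, Big (β + A + c • pb (inc L) H) := by
  have ok := h.toExt.ok h.ff
  refine ⟨fun k A a b => (big_fib h3 h4 h hH (add_mem hβ b)).1 ?_, fun k => ?_⟩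
  · rw [pb_add]; exact k.add_big (big_pb ok h.gen a)
  obtain ⟨s, -, a⟩ := exists_big h.fk
  refine .of_eff (ok.car (mx_mem_Car s)) fun ε e => ?_
  have c := Submodule.smul_mem _ ε (mx_mem_Car s)
  rw [← pb_smul, ← pb_add]
  exact ((big_fib h3 h4 h hH (add_mem hβ c)).2 (k _ (a.smul e) c)).eff

variable {Λ : BD K} (d : Dsc Λ (pb (inc L) H))
include d

theorem fld_fib (f : K) : φ f ∈ fld (pb φ Λ) ↔ f ∈ fld Λ := by
  have ok := h.toExt.ok h.ff
  rw [mem_fld (ok.eff d.smp.eff), mem_fld d.smp.eff, InF, ← pb_pld ok]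
  simp only [← pb_smul, ← pb_sub]
  refine ⟨fun ⟨ε, a, b⟩ => ?_, fun ⟨ε, a, b⟩ => ⟨ε, a, ok.eff b⟩⟩
  obtain ⟨c, b⟩ := (eff_fib h3 h4 h hH
    (sub_mem d.smp.car (Submodule.smul_mem _ ε (pld_car f)))).1 b
  obtain ⟨δ, e, g⟩ := d.exists_sub
  have := b.add (absorb (X := ε • pld f) (c := c) e g.eff ((h.fk.ok_sub L).eff hH.eff))
  rw [add_sub_cancel] at this
  exact InF.of_sub (c := (1 + |c| / δ)⁻¹) ⟨ε, a, this⟩ (by positivity)
    (by rw [inv_smul_smul₀ (by positivity), sub_self]; exact .zero)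

theorem dim_fib : dim Λ = r + dim (pb φ Λ) := by
  have oL := h.fk.ok_sub L
  have le : L ≤ fld Λ := fun a ha => d.fld_le (InF.mem (by
    obtain ⟨ε, x, y⟩ := hH.exists_eff (pld_car ⟨a, ha⟩)
    exact ⟨ε, x, by simpa [pb_sub, pb_smul, pb_pld oL] using oL.eff y⟩))
  obtain ⟨k, -, hk⟩ := Gm.ff_sub h.ff (fld (pb φ Λ))
  rw [dim, dim, trdeg_fib (F' := fld (pb φ Λ)) h.toExt le (fun f => (fld_fib h3 h4 h hH d f).2)
    fun g => orbit_poly h.toGF (fun f => (fld_fib h3 h4 h hH d f).1) fun σ k g hg => ?_,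
    h.fl.trdeg, hk.trdeg, ← Nat.cast_add, Cardinal.toNat_natCast, Cardinal.toNat_natCast]
  have s := h.toGF.semi k
  have e : pb (σ : K' →+* K') (pb φ Λ) = pb φ Λ := by
    rw [← s.ok.pb_comp]
    exact congrArg (pb · Λ) (RingHom.ext k)
  rw [← e, s.fld]
  exact ⟨g, hg, rfl⟩

end

/-- the data on a residue field -/
theorem step (hM : MOD) (hR : RES) (hV : VOL) (hP : PB) (h1 : G2) (h2 : G2b)
    (h : GFd r (m + 1) L φ) {H : BD L} (hH : Big H) (sH : Smp H) {P : Pl K'} {Q : Pl K}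
    (k : Lies φ P Q) : ∃ (ψ : Q.κ →+* P.κ) (H' : BD (Q.cf L)), GFd r m (Q.cf L) ψ ∧ Big H' ∧
      Smp H' ∧ res Q (pb (inc L) H) = pb (inc _) H' ∧
      ∀ β ∈ Car K, res P (pb φ β) - pb ψ (res Q β) ∈ Prn P.κ := by
  obtain ⟨z, -⟩ := (h1 _ _ _ _ L φ h).2.1 P Q k
  obtain ⟨b1, b2, b3, -⟩ := h2 _ _ _ _ L φ h Q z
  obtain ⟨_, ⟨⟩, g⟩ := b3 P _ k k.isRd
  obtain ⟨j, j1, j2, j3⟩ := deg_cf hM hP z h.fl g.fl
  have h' : ∀ a, inc L a ∈ Q.ring := fun a => z a a.2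
  refine ⟨_, pb j H, g, (hV.big r _ g.fl _ (j2.nef sH.nef)).2 ?_, j2.smp sH, ?_, fun β b =>
    rst hR h.fk h.ff (h.toExt.ok h.ff) k k.isRd (g.toExt.ok g.ff) b⟩
  · rw [vol, j3 _ fun _ => sH.car, ← b2]
    exact mul_pos (Nat.cast_pos.2 ((ncard_pos b1).2 ⟨P, k⟩)) ((hV.big r _ h.fl _ sH.nef).1 hH)
  · rw [hP.hor _ _ _ _ _ h.fl h.fk (fun _ => rfl) _ (hr h') h' (hr_apply h') _ sH.car,
      ← Ok.pb_comp (g.fk.ok_sub _)]
    exact congrArg (pb · _) (RingHom.ext fun a => (hr_apply h' a).trans (j1 a).symm)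

theorem on_fib (hM : MOD) (hR : RES) (hV : VOL) (hP : PB) (h1 : G2) (h2 : G2b) (h3 : G3)
    (h4 : G3b) (h : GFd r (m + 1) L φ) {H : BD L} (hH : Big H) (sH : Smp H) {Λ : BD K}
    (d : Dsc Λ (pb (inc L) H)) {P : Pl K'} {Q : Pl K} (k : Lies φ P Q) :
    (On m (pb φ Λ) P ↔ On (r + m) Λ Q) ∧ cd Λ Q = r + cd (pb φ Λ) P := by
  obtain ⟨ψ, H', g, a, b, c, e⟩ := step hM hR hV hP h1 h2 h hH sH k
  have e := e Λ d.smp.car
  have d' := hR.des _ K h.fk _ _ Q d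
  rw [c] at d'
  refine ⟨?_, by rw [cd, cd, dim_congr e, dim_fib h3 h4 g a d']⟩
  rw [hR.on m K' h.ff _ P ((h.toExt.ok h.ff).smp d.smp), hR.on (r + m) K h.fk _ Q d.smp]
  refine .trans ⟨fun x => x.congr (by simpa using neg_mem e), fun x => x.congr e⟩
    ((big_fib h3 h4 g a d'.smp.car).trans ⟨fun ⟨c, x⟩ => ?_, fun x => ⟨0, by simpa using x⟩⟩)
  obtain ⟨δ, y, z⟩ := d'.exists_sub
  exact absorb_big y z.eff ((g.fk.ok_sub _).eff a.eff) x

end Gx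

open Gx

theorem g6 (hM : MOD) (hR : RES) (hV : VOL) (hP : PB) (h1 : G2) (h2 : G2b) (h3 : G3) (h4 : G3b) :
    G6 := fun _ _ _ _ _ _ _ _ _ _ h _ sH hH =>
  ⟨fun _ => eff_fib h3 h4 h hH, fun _ => big_fib h3 h4 h hH, fun _ => psef_fib h3 h4 h hH,
    fun _ _ d => ⟨dim_fib h3 h4 h hH d, fld_fib h3 h4 h hH d, fun _ _ _ e k => by
      subst e
      exact (on_fib hM hR hV hP h1 h2 h3 h4 h hH sH d k).1⟩⟩

/-- **GEN.on** -/
theorem gen_on (hM : MOD) (hR : RES) (hV : VOL) (hP : PB) (h1 : G2) (h2 : G2b) (h3 : G3)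
    (h4 : G3b) (m r : ℕ) : ForH fun K _ _ _ _ _ φ => ∀ L, GF L φ → FF L m → FF K (r + m + 1) →
    ∀ (Λ : BD K) (Λ₀ : BD L), Smp Λ → Big Λ → Smp Λ₀ → Big Λ₀ → Dsc Λ (pb (inc L) Λ₀) →
      ∀ P Q, Lies φ P Q → (On r (pb φ Λ) P ↔ On (r + m) Λ Q) ∧
        cd Λ Q = cd (pb φ Λ) P + m := fun _ _ _ _ _ _ _ _ h a b _ _ _ _ c e d _ _ k => by
  rw [add_comm r m] at b ⊢
  rw [add_comm _ m]
  exact on_fib (r := m) hM hR hV hP h1 h2 h3 h4 ⟨h, b, a⟩ e c d k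

end Vale.Agent.P287D
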