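import Vale.Agent.P287D.Gf.One
import Vale.Agent.P287D.Va.Cone

/-!
# P287D, block GF: two extensions of the constants are conjugate on finite sets
-/

set_option linter.unusedSectionVars false

open Set Cardinal MvPolynomial TensorProduct

noncomputable section

namespace Vale.Agent.P287D

namespace Gx

theorem conj0 {k : Type} [Field k] (hk : #k ≤ ℵ₀) (j j' : k →+* ℂ) :
    ∃ τ : ℂ ≃+* ℂ, ∀ a, τ (j a) = j' a := by
  have H : ∀ (C C' : Type) [Field C] [Field C'] [Algebra k C] [Algebra k C'] [IsAlgClosed C]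
      [IsAlgClosed C'], ℵ₀ < #C → #C = #C' →
      ∃ τ : C ≃+* C', ∀ a, τ (algebraMap k C a) = algebraMap k C' a := by
    intro C C' _ _ _ _ _ _ a b
    obtain ⟨ι, v, hv⟩ := exists_isTranscendenceBasis' k C
    obtain ⟨κ, w, hw⟩ := exists_isTranscendenceBasis' k C'
    obtain ⟨e⟩ := Cardinal.eq.1
      ((IsAlgClosed.cardinal_eq_cardinal_transcendence_basis_of_aleph0_lt' v hv hk a).symm.trans
        (b.trans (IsAlgClosed.cardinal_eq_cardinal_transcendence_basis_of_aleph0_lt' w hw hk
          (b ▸ a))))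
    have := IsAlgClosed.isAlgClosure_of_transcendence_basis v hv
    have := IsAlgClosed.isAlgClosure_of_transcendence_basis w hw
    let E := (hv.1.aevalEquiv.symm.trans (renameEquiv k e)).trans hw.1.aevalEquiv
    refine ⟨IsAlgClosure.equivOfEquiv C C' E.toRingEquiv, fun a => ?_⟩
    exact (IsAlgClosure.equivOfEquiv_algebraMap C C' E.toRingEquiv (algebraMap k _ a)).trans
      (congrArg Subtype.val (E.commutes a))
  exact @H ℂ ℂ _ _ j.toAlgebra j'.toAlgebra _ _ (mk_complex ▸ aleph0_lt_continuum) rfl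

theorem frac {A E E' : Type} [CommRing A] [Field E] [Field E'] (e : A →+* E) (e' : A →+* E')
    (h : RingHom.ker e = RingHom.ker e') (s : ∀ z, ∃ a b, z = e a / e b) :
    ∃ θ : E →+* E', ∀ a, θ (e a) = e' a := by
  let _ := (RingHom.kerLift e).toAlgebra
  have : FaithfulSMul (A ⧸ RingHom.ker e) E :=
    (faithfulSMul_iff_algebraMap_injective _ _).2 e.kerLift_injective
  have : IsFractionRing (A ⧸ RingHom.ker e) E := .of_field _ _ fun z =>
    let ⟨a, b, k⟩ := s z; ⟨Ideal.Quotient.mk _ a, Ideal.Quotient.mk _ b, k⟩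
  have i : Function.Injective ((RingHom.kerLift e').comp (Ideal.quotEquivOfEq h).toRingHom) :=
    e'.kerLift_injective.comp (Ideal.quotEquivOfEq h).injective
  exact ⟨IsFractionRing.lift i, fun a => IsFractionRing.lift_algebraMap i (Ideal.Quotient.mk _ a)⟩

theorem ker_be {L K C K' ι : Type} [Field L] [Field K] [Field C] [Field K'] [Algebra L K]
    [Algebra L C] [Algebra K K'] [Algebra C K'] [Algebra L K'] [IsScalarTower L K K']
    [IsScalarTower L C K'] (b : Gf.BE L K C K') (x : ι → K) :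
    RingHom.ker (eval₂Hom (algebraMap C K') fun i => algebraMap K K' (x i)) =
      (RingHom.ker (aeval x : MvPolynomial ι L →ₐ[L] K)).map (MvPolynomial.map (algebraMap L C)) := by
  have c : ∀ p, eval₂Hom (algebraMap C K') (fun i => algebraMap K K' (x i))
      (MvPolynomial.map (algebraMap L C) p) = algebraMap K K' (aeval x p) := fun p => by
    rw [eval₂Hom_map_hom, map_aeval, ← IsScalarTower.algebraMap_eq, ← IsScalarTower.algebraMap_eq]
  refine le_antisymm (fun q hq => ?_) (Ideal.map_le_iff_le_comap.2 fun p hp =>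
    (c p).trans ((congrArg _ hp).trans (map_zero _)))
  let μ : C ⊗[L] K →ₐ[C] K' := Algebra.TensorProduct.lift (Algebra.ofId C K')
    (IsScalarTower.toAlgHom L K K') fun _ _ => Commute.all _ _
  have m : ∀ c f, μ (c ⊗ₜ f) = algebraMap C K' c * algebraMap K K' f := fun c f => rfl
  have hi : Function.Injective μ := by
    let v := Module.Basis.ofVectorSpace L K
    refine LinearMap.injective_of_linearIndependent (f := μ.toLinearMap)
      (Algebra.TensorProduct.basis C v).span_eq ?_
    have : μ.toLinearMap ∘ Algebra.TensorProduct.basis C v = fun i => algebraMap K K' (v i) := by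
      funext i
      simp [Algebra.TensorProduct.basis_apply, m]
    rw [this]
    exact b.dis' v.linearIndependent
  obtain ⟨z, rfl⟩ := (algebraTensorAlgEquiv L C (σ := ι)).surjective q
  have k : ∀ z, μ ((aeval x).toLinearMap.lTensor C z) = eval₂Hom (algebraMap C K')
      (fun i => algebraMap K K' (x i)) (algebraTensorAlgEquiv L C z) := fun z => by
    induction z with
    | zero => simp
    | add a b x y => simp only [map_add, x, y]
    | tmul a p => rw [algebraTensorAlgEquiv_tmul, smul_eq_C_mul, map_mul, c]; simp [m]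
  have z0 : (aeval x).toLinearMap.lTensor C z = 0 := hi (by rw [k, map_zero]; exact hq)
  have ex := Module.Flat.lTensor_exact C (aeval (R := L) x).toLinearMap.exact_subtype_ker_map
  obtain ⟨w, hw⟩ := (ex z).1 z0
  rw [← hw]
  clear hw
  induction w with
  | zero => simp
  | add a b x y => rw [map_add, map_add]; exact add_mem x y
  | tmul a p =>
    rw [LinearMap.lTensor_tmul, algebraTensorAlgEquiv_tmul, smul_eq_C_mul]
    exact Ideal.mul_mem_left _ _ (Ideal.mem_map_of_mem _ p.2)

variable {K K' : Type} [Field K] [Algebra ℂ K] [Field K'] [Algebra ℂ K'] {φ : K →+* K'}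
  {L : IntermediateField ℂ K} {ι : Type}

/-- evaluation at the images of `x` -/
def ev (φ : K →+* K') (x : ι → K) : MvPolynomial ι ℂ →+* K' :=
  eval₂Hom (algebraMap ℂ K') fun i => φ (x i)

theorem ker_ev (h : Ext L φ) (x : ι → K) : ∃ j : L →+* ℂ, RingHom.ker (ev φ x) =
    (RingHom.ker (aeval x : MvPolynomial ι L →ₐ[L] K)).map (MvPolynomial.map j) :=
  h.elim fun e b => e ▸ ⟨_, ker_be b x⟩

theorem ev_frac (h : Ext L φ) {x : ι → K} (hx : IntermediateField.adjoin L (range x) = ⊤)
    (z : K') : ∃ a b, z = ev φ x a / ev φ x b := by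
  have c : ∀ c, algebraMap ℂ K' c ∈ Subfield.closure (range (ev φ x)) := fun c =>
    Subfield.subset_closure ⟨C c, by simp [ev]⟩
  have k : (IntermediateField.adjoin L (range x)).toSubfield ≤
      (Subfield.closure (range (ev φ x))).comap φ := Subfield.closure_le.2 (by
    rintro _ (⟨a, rfl⟩ | ⟨i, rfl⟩)
    · exact (congrArg (· ∈ _) (h.j_spec a)).mp (c (h.j a))
    · exact Subfield.subset_closure ⟨X i, by simp [ev]⟩)
  have : Subfield.closure (range φ ∪ range (algebraMap ℂ K')) ≤
      Subfield.closure (range (ev φ x)) := Subfield.closure_le.2 (by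
    rintro _ (⟨f, rfl⟩ | ⟨a, rfl⟩)
    exacts [k (hx.ge trivial), c a])
  obtain ⟨a, ha, b, hb, rfl⟩ := Subfield.mem_closure_iff.1 (this (h.gen.ge trivial : z ∈ _))
  rw [← RingHom.coe_range, Subring.closure_eq] at ha hb
  obtain ⟨a, rfl⟩ := ha
  obtain ⟨b, rfl⟩ := hb
  exact ⟨a, b, rfl⟩

end Gx

open Gx

variable {K K' K₀ : Type} [Field K] [Algebra ℂ K] [Field K'] [Algebra ℂ K'] [Field K₀]
  [Algebra ℂ K₀] {n : ℕ} {φ : K →+* K'} {φ₀ : K →+* K₀} {L : IntermediateField ℂ K}

/-- **XI**: two extensions over the same base are conjugate on every finite set -/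
theorem Ext.xi (h : Ext L φ) (h₀ : Ext L φ₀) (hK : FF K n) (T : Finset K) :
    ∃ θ : K₀ →+* K', Semi θ ∧ ∀ f ∈ T, θ (φ₀ f) = φ f := by
  classical
  have := hK.ess
  have := Algebra.EssFiniteType.of_comp ℂ L K
  obtain ⟨s, hs⟩ := (IntermediateField.fg_top_iff (F := L) (E := K)).2 this
  let ι : Type := (s ∪ T : Finset K)
  let x : ι → K := Subtype.val
  have hx : IntermediateField.adjoin L (range x) = ⊤ := eq_top_iff.2 (hs.ge.trans
    (IntermediateField.adjoin.mono _ _ _ fun a ha => ⟨⟨a, Finset.mem_union_left _ ha⟩, rfl⟩))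
  obtain ⟨j, hj⟩ := ker_ev h x
  obtain ⟨j₀, hj₀⟩ := ker_ev h₀ x
  obtain ⟨G, hG⟩ := IsNoetherian.noetherian (RingHom.ker (aeval x : MvPolynomial ι L →ₐ[L] K))
  let k := Subfield.closure (G.biUnion coeffs : Set L)
  obtain ⟨τ, hτ⟩ := conj0 (k := k) ((Subfield.cardinalMk_closure_le_max _).trans
    (max_le (Finset.finite_toSet _).lt_aleph0.le le_rfl)) (j₀.comp k.subtype) (j.comp k.subtype)
  have e : RingHom.ker (ev φ₀ x) = RingHom.ker ((ev φ x).comp (MvPolynomial.map τ.toRingHom)) := by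
    rw [← RingHom.comap_ker, hj, hj₀, ← hG, ← Ideal.comap_map_of_bijective
      (I := Ideal.map _ _) (MvPolynomial.map τ.toRingHom)
      ⟨map_injective _ τ.injective, map_surjective _ τ.surjective⟩, Ideal.map_map]
    refine congrArg _ ?_
    rw [Ideal.submodule_span_eq, Ideal.map_span, Ideal.map_span]
    refine congrArg _ (image_congr fun p hp => MvPolynomial.ext _ _ fun m => ?_)
    simp only [RingHom.comp_apply, coeff_map]
    by_cases z : p.coeff m = 0
    · simp [z]
    · exact hτ ⟨_, Subfield.subset_closure (Finset.mem_biUnion.2 ⟨p, hp, coeff_mem_coeffs m z⟩)⟩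
  obtain ⟨θ, hθ⟩ := frac _ _ e (ev_frac h₀ hx)
  have c : ∀ c, θ (algebraMap ℂ K₀ c) = algebraMap ℂ K' (τ c) := fun c => by
    simpa [ev] using hθ (C c)
  refine ⟨θ, ⟨fun z => ?_, fun a => ⟨_, (c a).symm⟩, fun a => ⟨τ.symm a, by simp [c]⟩⟩,
    fun f hf => by simpa [ev] using hθ (X ⟨f, Finset.mem_union_right _ hf⟩)⟩
  obtain ⟨a, b, rfl⟩ := ev_frac h hx z
  obtain ⟨a, rfl⟩ := map_surjective τ.toRingHom τ.surjective a
  obtain ⟨b, rfl⟩ := map_surjective τ.toRingHom τ.surjective b
  exact ⟨ev φ₀ x a / ev φ₀ x b, by rw [map_div₀, hθ, hθ]; rfl⟩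

/-- **XC**: the same for finitely many Cartier b-divisors -/
theorem Ext.xc (h : Ext L φ) (h₀ : Ext L φ₀) (hK : FF K n) (ok : Ok φ) (ok₀ : Ok φ₀)
    {ι : Type} [Finite ι] {β : ι → BD K} (hβ : ∀ i, β i ∈ Car K) (T : Finset K) :
    ∃ θ : K₀ →+* K', Semi θ ∧ (∀ f ∈ T, θ (φ₀ f) = φ f) ∧ ∀ i, pb θ (pb φ₀ (β i)) = pb φ (β i) := by
  classical
  have := Fintype.ofFinite ι
  choose l hl using fun i => mem_Car.1 (hβ i)
  obtain ⟨θ, a, b⟩ := h.xi h₀ hK (T ∪ Finset.univ.biUnion fun i => (l i).support.biUnion id)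
  refine ⟨θ, a, fun f hf => b f (Finset.mem_union_left _ hf), fun i => ?_⟩
  simp only [hl i, cmb_sum, pb_sum, pb_smul, ok.pb_mx, ok₀.pb_mx, a.ok.pb_mx]
  refine Finset.sum_congr rfl fun s hs => congrArg (fun u => l i s • mx u) ?_
  rw [Pb.im_eq, Pb.im_eq, Pb.im_eq, Finset.image_image]
  exact Finset.image_congr fun f hf => b f (Finset.mem_union_right _ (Finset.mem_biUnion.2
    ⟨i, Finset.mem_univ _, Finset.mem_biUnion.2 ⟨s, hs, hf⟩⟩))

end Vale.Agent.P287D
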