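import Vale.Agent.P287D.Gf.Six
import Vale.Agent.P287D.Gf.Xi
import Vale.Agent.P287D.Gf.Des
import Vale.Agent.P287D.Iso.Int

/-!
# P287D, block GF: the rows GEN.big and GEN.num
-/

open Set

noncomputable section

namespace Vale.Agent.P287D

namespace Gx

variable {K K' : Type} [Field K] [Algebra ℂ K] [Field K'] [Algebra ℂ K'] {n m r : ℕ}
  {φ : K →+* K'} {L : IntermediateField ℂ K}

theorem ap_eq {X : Type} (H : Fin m → X) : ∀ (r : ℕ) (β : Fin r → X),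
    ap r β H = Fin.append β H ∘ Fin.cast (add_comm m r)
  | 0, β => by rw [Fin.append_left_nil _ _ rfl]; rfl
  | r + 1, β => by
    conv_rhs => rw [← Fin.cons_self_tail β, Fin.append_cons]
    rw [ap, ap_eq H r]
    exact funext (Fin.cases rfl fun _ => rfl)

theorem I_cast (e : n = m) (β : Fin m → BD K) : I n K (β ∘ Fin.cast e) = I m K β := by
  subst e; rfl

/-- the row GEN.tr -/
def TR : Prop := ∀ (n r : ℕ), ForH fun K K' _ _ _ _ φ => ∀ L, Ext L φ → FF K (n + 1) →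
  FF K' (r + 1) →
    ∃ f, Tr n r φ 0 (fun Λ => ∃ Λ₀ : BD L, Smp Λ₀ ∧ Big Λ₀ ∧ Dsc Λ (pb (inc L) Λ₀)) f

/-- the first entry can be replaced by a Cartier b-divisor -/
theorem repl (hM : MOD) (hI : INT) (tr : TR) (hK : FF K (n + 1)) (L : IntermediateField ℂ K)
    {Z : BD K} (hZ : IsB n Z) {β : Fin r → BD K} (hβ : ∀ i, β i ∈ Car K) : ∃ Z' ∈ Car K,
      ∀ (K' : Type) [Field K'] [Algebra ℂ K'] (φ : K →+* K'), Ext L φ → FF K' (r + 1) →
        I (r + 1) K' (fun j => pb φ (Fin.cons (α := fun _ => BD K) Z β j)) =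
          I (r + 1) K' fun j => pb φ (Fin.cons (α := fun _ => BD K) Z' β j) := by
  classical
  obtain ⟨k, -, hL⟩ := Gm.ff_sub hK L
  obtain ⟨s₀, -, b₀⟩ := exists_big hL
  obtain ⟨s, Γ, t, -, -, d, -, c⟩ := hM.ex n K hK ∅ (insert (pb (inc L) (mx s₀)) (range β))
    finite_empty ((finite_range β).insert _)
    (insert_subset ((hK.ok_sub L).car (mx_mem_Car _)) (range_subset_iff.2 hβ))
  choose! b b1 b2 using c
  have f := hZ s t.big
  refine ⟨∑ Q ∈ f.toFinset, Z Q • b Q, sum_mem fun Q hQ =>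
    Submodule.smul_mem _ _ (CarZ.car (b1 Q (f.mem_toFinset.1 hQ).1)), fun K' _ _ φ h hK' => ?_⟩
  have e : ∀ Q, On n (mx s) Q → (∑ Q ∈ f.toFinset, Z Q • b Q) Q = Z Q := fun Q hQ => by
    rw [Finset.sum_apply, Finset.sum_congr rfl (g := fun R => if Q = R then Z R else 0)
      fun R hR => by simp [(b2 R (f.mem_toFinset.1 hR).1).2 Q hQ, Pl.δ], Finset.sum_ite_eq]
    by_cases z : Z Q = 0 <;> simp [z, hQ]
  obtain ⟨g, T⟩ := tr n r _ _ φ L h hK hK'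
  have ok := h.ok hK'
  refine finsum_congr fun P => ?_
  simp only [Fin.cons_zero, Fin.cons_succ]
  by_cases o : On r (pb φ (mx s)) P
  · rcases T.on _ t.smp t.big ⟨_, smp_mx _, b₀, d _ (mem_insert _ _)⟩ P o with z | ⟨Q, x, y, -⟩
    · rw [Trv.pb z.1, Trv.pb z.1]
    · rw [x.pb, x.pb, e Q y]
  · rw [hI.exc r K' hK' _ P _ (ok.smp t.smp) o fun i =>
      ok.dsc (d _ (mem_insert_of_mem _ ⟨i, rfl⟩)), mul_zero, mul_zero]

theorem I_ext (hM : MOD) (hI : INT) (tr : TR) (H : In.Hy) {K₀ : Type} [Field K₀] [Algebra ℂ K₀]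
    {φ₀ : K →+* K₀} (h : Ext L φ) (h₀ : Ext L φ₀) (hL : FF L m) (hK : FF K (r + m))
    (β : Fin r → BD K) (b : ∀ j, IsB (r + m - 1) (β j)) (c : ∀ j : Fin r, j.1 ≠ 0 → β j ∈ Car K) :
    I r K' (fun j => pb φ (β j)) = I r K₀ fun j => pb φ₀ (β j) := by
  have f := h.ff hL hK
  have f₀ := h₀.ff hL hK
  obtain _ | r := r
  · rfl
  have b0 := b 0
  rw [add_right_comm] at hK b0
  obtain ⟨Z, z, e⟩ := repl hM hI tr hK L b0 (β := Fin.tail β) fun i => c _ (by simp)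
  obtain ⟨θ, s, -, k⟩ := h.xc h₀ hK (h.ok f) (h₀.ok f₀) (β := Fin.cons Z (Fin.tail β))
    (Fin.cases z fun i => c _ (by simp)) ∅
  rw [← Fin.cons_self_tail β, e _ φ h f, e _ φ₀ h₀ f₀, ← s.I_pb H f₀, funext k]

end Gx

open Gx

/-- **GEN.big** -/
theorem gen_big (h4 : G3b) (n : ℕ) : ForH fun K _ _ _ _ _ φ => ∀ L, Ext L φ → FF K n →
    ∀ (Λ₀ : BD L) (β : BD K), Smp Λ₀ → Big Λ₀ → β ∈ Car K →
      (Big (pb φ β) ↔ ∃ c : ℝ, Big (β + c • pb (inc L) Λ₀)) ∧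
      (Eff (pb φ β) ↔ ∃ c : ℝ, Eff (β + c • pb (inc L) Λ₀)) := by
  intro K K' _ _ _ _ φ L h hK Λ₀ β _ b c
  obtain ⟨K₀, _, _, φ₀, h₀⟩ := gen_ex n K hK L h.cld
  obtain ⟨r, m, rfl, g⟩ := h₀.gfd hK
  obtain ⟨θ, s, -, k⟩ := h.xc h₀.toExt hK (h.ok (h.ff g.fl (add_comm r m ▸ hK))) g.ok
    (β := fun _ : Unit => β) (fun _ => c) ∅
  rw [← k (), s.big, s.eff]
  exact ⟨big_fib g3 h4 g b c, eff_fib g3 h4 g b c⟩

/-- **GEN.num** -/
theorem gen_num (hF : FFS) (hM : MOD) (hR : RES) (hI : INT) (hP : PB) (tr : TR) (H : In.Hy)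
    (m r : ℕ) : ForH fun K K' _ _ _ _ φ => ∀ L, Ext L φ → FF L m → FF K (r + m) →
    ∀ (β : Fin r → BD K) (γ : Fin m → BD L), (∀ j, IsB (r + m - 1) (β j)) →
      (∀ j : Fin r, j.1 ≠ 0 → β j ∈ Car K) → (∀ j, γ j ∈ Car L) →
      I (r + m) K (Fin.append β fun j => pb (inc L) (γ j)) =
        I r K' (fun j => pb φ (β j)) * I m L γ := by
  intro K K' _ _ _ _ φ L h hL hK β γ a b c
  obtain ⟨K₀, _, _, φ₀, h₀⟩ := gen_ex _ K hK L h.cld
  rw [I_ext hM hI tr H h h₀.toExt hL hK β a b, mul_comm, ← g5 hF hM hR hI hP g1b g2 g2b m r K K₀ L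
    φ₀ ⟨h₀, add_comm r m ▸ hK, hL⟩ β γ b c, ap_eq, I_cast]

end Vale.Agent.P287D
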