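import Vale.Agent.P287D.Gf.One
import Vale.Agent.P287D.Cb.Lg

/-!
# P287D, block GF: valuations of the geometric generic fibre
-/

set_option linter.all false

open Set Polynomial IsLocalRing TensorProduct
open Vale.Agent.P297 (Place)
open Vale.Agent.P297Z

noncomputable section

namespace Vale.Agent.P287D

namespace Gf

section abs

variable {L K C K' K'' : Type} [Field L] [Field K] [Field C] [Field K'] [Algebra L K] [Algebra L C]
  [Algebra K K'] [Algebra C K'] [Algebra L K'] [IsScalarTower L K K'] [IsScalarTower L C K']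

theorem trdeg_gen [Algebra.IsAlgebraic L C]
    (gen : Subfield.closure (range (algebraMap K K') ∪ range (algebraMap C K')) = ⊤) :
    Algebra.trdeg C K' = Algebra.trdeg L K := by
  have : Algebra.IsAlgebraic K K' := ⟨fun x => by
    have : Subfield.closure (range (algebraMap K K') ∪ range (algebraMap C K')) ≤
        (algebraicClosure K K').toSubfield := Subfield.closure_le.2 (by
      rintro _ (⟨c, rfl⟩ | ⟨c, rfl⟩)
      · exact (algebraicClosure K K').algebraMap_mem c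
      · exact mem_algebraicClosure_iff'.2
          ((Algebra.IsIntegral.isIntegral (R := L) c).algebraMap (B := K')).tower_top)
    exact mem_algebraicClosure_iff.1 (this (gen ▸ Subfield.mem_top x))⟩
  have h1 := trdeg_add_eq L C (A := K')
  have h2 := trdeg_add_eq L K (A := K')
  rw [trdeg_eq_zero (R := L) (A := C), zero_add] at h1
  rw [trdeg_eq_zero (R := K) (A := K'), add_zero] at h2
  exact h1.trans h2.symm

/-- linear relations over the constants are universal -/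
theorem BE.tr (h : BE L K C K') [Field K''] [Algebra K K''] [Algebra C K''] [Algebra L K'']
    [IsScalarTower L K K''] [IsScalarTower L C K''] {ι : Type} [Fintype ι] (c : ι → C) (e : ι → K)
    (h0 : ∑ i, c i • algebraMap K K' (e i) = 0) : ∑ i, c i • algebraMap K K'' (e i) = 0 := by
  let μ : C ⊗[L] K →ₐ[C] K' := Algebra.TensorProduct.lift (Algebra.ofId C K')
    (IsScalarTower.toAlgHom L K K') fun _ _ => Commute.all _ _
  let ν : C ⊗[L] K →ₐ[C] K'' := Algebra.TensorProduct.lift (Algebra.ofId C K'')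
    (IsScalarTower.toAlgHom L K K'') fun _ _ => Commute.all _ _
  have m : ∀ c f, μ (c ⊗ₜ f) = c • algebraMap K K' f := fun c f => (Algebra.smul_def _ _).symm
  have n : ∀ c f, ν (c ⊗ₜ f) = c • algebraMap K K'' f := fun c f => (Algebra.smul_def _ _).symm
  have hi : Function.Injective μ := by
    let b := Module.Basis.ofVectorSpace L K
    refine LinearMap.injective_of_linearIndependent (f := μ.toLinearMap)
      (Algebra.TensorProduct.basis C b).span_eq ?_
    have : μ.toLinearMap ∘ Algebra.TensorProduct.basis C b = fun i => algebraMap K K' (b i) := by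
      funext i
      simp [Algebra.TensorProduct.basis_apply, m]
    rw [this]
    exact h.dis' b.linearIndependent
  have h1 : (∑ i, c i ⊗ₜ e i : C ⊗[L] K) = 0 := hi (by
    rw [map_sum, map_zero, ← h0]
    exact Finset.sum_congr rfl fun i _ => m _ _)
  have h2 := congrArg ν h1
  rw [map_sum, map_zero] at h2
  exact (Finset.sum_congr rfl fun i _ => (n _ _).symm).trans h2

end abs

theorem int_mem {A E : Type} [CommRing A] [Field E] (V : ValuationSubring E) {ψ : A →+* E}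
    (h : ∀ a, ψ a ∈ V) {x : E} {p : A[X]} (hp : p.Monic) (hx : p.eval₂ ψ x = 0) : x ∈ V := by
  have : IsIntegral V x := ⟨p.map (ψ.codRestrict V h), hp.map _, by rw [eval₂_map]; exact hx⟩
  obtain ⟨y, rfl⟩ := IsIntegrallyClosed.isIntegral_iff.1 this
  exact y.2

theorem exists_over {F E : Type} [Field F] [Field E] (W : ValuationSubring F) (φ : F →+* E) :
    ∃ V : ValuationSubring E, ∀ f, f ∈ W ↔ φ f ∈ V := by
  obtain ⟨V, h, hl⟩ := exists_factor_valuationRing (φ.comp W.subtype)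
  refine ⟨V, fun f => ⟨fun k => h ⟨f, k⟩, fun k => ?_⟩⟩
  by_contra hf
  have f0 : f ≠ 0 := fun e => hf (e ▸ W.zero_mem)
  have h1 : f⁻¹ ∈ W := (W.mem_or_inv_mem f).resolve_left hf
  have h2 : IsUnit (⟨f⁻¹, h1⟩ : W) := hl.1 _ (IsUnit.of_mul_eq_one ⟨φ f, k⟩ (Subtype.ext (by
    change φ f⁻¹ * φ f = 1
    rw [← map_mul, inv_mul_cancel₀ f0, map_one])))
  obtain ⟨g, hg⟩ := h2.exists_right_inv
  have h3 : f⁻¹ * g = 1 := congrArg Subtype.val hg
  exact hf ((eq_of_inv_mul_eq_one₀' f0 h3) ▸ g.2)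
where
  eq_of_inv_mul_eq_one₀' {F : Type} [Field F] {f g : F} (f0 : f ≠ 0) (h : f⁻¹ * g = 1) : f = g :=
    (inv_mul_eq_one₀ f0).1 h

variable {K K' : Type} [Field K] [Algebra ℂ K] [Field K'] [Algebra ℂ K']
  {L : IntermediateField ℂ K} {φ : K →+* K'} {n m r : ℕ} {Q : Pl K} {V : ValuationSubring K'}

/-- the ring generated by the ring of `Q` and the constants -/
def RR (φ : K →+* K') (Q : Pl K) : Subalgebra ℂ K' := Algebra.adjoin ℂ (φ '' Q.ring)

theorem mem_RR {f : K} (h : f ∈ Q.ring) : φ f ∈ RR φ Q := Algebra.subset_adjoin ⟨f, h, rfl⟩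

theorem RR_rep {x : K'} (h : x ∈ RR φ Q) :
    ∃ (n : ℕ) (c : Fin n → ℂ) (o : Fin n → Q.ring), ∑ i, c i • φ (o i) = x := by
  have h3 : (Submonoid.closure (φ '' Q.ring) : Set K') = φ '' Q.ring :=
    congrArg _ (Submonoid.closure_eq (Q.ring.toSubring.map φ).toSubmonoid)
  have h4 : x ∈ Submodule.span ℂ (φ '' Q.ring) := by
    rw [← h3, ← Algebra.adjoin_eq_span]
    exact h
  obtain ⟨n, c, g, rfl⟩ := Submodule.mem_span_set'.1 h4
  choose o ho he using fun i => (g i).2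
  exact ⟨n, c, fun i => ⟨o i, ho i⟩, Finset.sum_congr rfl fun i _ => by rw [← he]⟩

theorem RR_le (hV : ∀ f, f ∈ Q.ring ↔ φ f ∈ V) (hc : ∀ c, algebraMap ℂ K' c ∈ V) {x : K'}
    (h : x ∈ RR φ Q) : x ∈ V := by
  induction h using Algebra.adjoin_induction with
  | mem x hx => obtain ⟨f, hf, rfl⟩ := hx; exact (hV f).1 hf
  | algebraMap c => exact hc c
  | add x y _ _ a b => exact add_mem a b
  | mul x y _ _ a b => exact mul_mem a b

/-- the map of the base to the ring of a horizontal place -/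
def lO (hQ : Hor L Q) : L →+* Q.ring := (inc L).codRestrict Q.ring fun a => hQ a a.2

/-- the map of the base to the residue field of a horizontal place -/
def lK (hQ : Hor L Q) : L →+* Q.κ := (residue Q.ring).comp (lO hQ)

theorem lK_apply (hQ : Hor L Q) (a : L) : lK hQ a = Q.rd a := (Cb.rd_of (hQ a a.2)).symm

theorem t_lt (hV : ∀ f, f ∈ Q.ring ↔ φ f ∈ V) : V.valuation (φ Q.t) < 1 := by
  by_contra k
  have h1 : V.valuation (φ Q.t⁻¹) ≤ 1 := by
    rw [map_inv₀, map_inv₀]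
    exact inv_le_one_of_one_le₀ (not_lt.1 k)
  have := (Pl.ord_nonneg_iff _ (inv_ne_zero Q.t_ne)).2 ((hV _).2 ((V.valuation_le_one_iff _).1 h1))
  rw [Pl.ord_inv, Q.ord_t] at this
  omega

end Gf

open Gf

variable {K K' : Type} [Field K] [Algebra ℂ K] [Field K'] [Algebra ℂ K']
  {L : IntermediateField ℂ K} {φ : K →+* K'} {n m r : ℕ} {Q : Pl K} {V : ValuationSubring K'}

namespace GF

variable (h : GF L φ)
include h

theorem cst_mem (hL : ∀ a : L, φ a ∈ V) (c : ℂ) : algebraMap ℂ K' c ∈ V := h.elim fun e b => by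
  subst e
  obtain ⟨p, hp, h0⟩ := (Algebra.IsIntegral.isIntegral (R := L) c).algebraMap (B := K')
  exact int_mem V (ψ := algebraMap L K') hL hp h0

theorem not_trv (P : Pl K') : ¬ Trv φ P := fun k => Pl.ring_ne_top P.toPlace
  (ValuationSubring.ext _ _ fun x => ⟨fun _ => ValuationSubring.mem_top _, fun _ =>
    let ⟨_, hp, h0⟩ := h.poly x
    int_mem _ k hp h0⟩)

theorem step2 (Q : Pl K) (x : K') : ∃ k : ℕ, φ Q.t ^ k * x ∈ RR φ Q := by
  have ht : φ Q.t ∈ RR φ Q := mem_RR (Cb.t_mem Q)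
  induction h.span x using Submodule.span_induction with
  | mem x hx =>
    obtain ⟨f, rfl⟩ := hx
    refine ⟨(Q.ord f).natAbs, ?_⟩
    rw [← map_pow, ← map_mul]
    refine mem_RR (Cb.mem_ord ?_)
    by_cases f0 : f = 0
    · simp [f0]
    rw [Pl.ord_mul _ (pow_ne_zero _ Q.t_ne) f0, Pl.ord_pow, Q.ord_t]
    omega
  | zero => exact ⟨0, by simp [zero_mem]⟩
  | add x y _ _ a b =>
    obtain ⟨i, a⟩ := a
    obtain ⟨j, b⟩ := b
    refine ⟨i + j, ?_⟩
    rw [show φ Q.t ^ (i + j) * (x + y) =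
      φ Q.t ^ j * (φ Q.t ^ i * x) + φ Q.t ^ i * (φ Q.t ^ j * y) by ring]
    exact add_mem (mul_mem (pow_mem ht _) a) (mul_mem (pow_mem ht _) b)
  | smul c x _ a => exact a.imp fun k a => by rw [mul_smul_comm]; exact Subalgebra.smul_mem _ a c

variable (hQ : Hor L Q) (hV : ∀ f, f ∈ Q.ring ↔ φ f ∈ V)
include hQ hV

theorem con (c : ℂ) : algebraMap ℂ K' c ∈ V := h.cst_mem (fun a => (hV _).1 (hQ a a.2)) c

theorem step1 {x : K'} (hx : x ∈ RR φ Q) (h0 : V.valuation x < 1) :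
    ∃ z ∈ RR φ Q, ∃ w ∈ RR φ Q, V.valuation z = 1 ∧ z * x = φ Q.t * w := h.elim fun e b => by
  classical
  subst e
  have := charZero_of L
  have hc := h.con hQ hV
  obtain ⟨n, c, o, rfl⟩ := RR_rep hx
  obtain ⟨α, hα, hp⟩ := prim (L := L) (Finset.univ.image c) fun c _ =>
    Algebra.IsIntegral.isIntegral c
  choose p _ hp using fun i => hp _ (Finset.mem_image_of_mem c (Finset.mem_univ i))
  let a : V := ⟨_, hc α⟩
  have ev : ∀ G : Q.ring[X], ((G.eval₂ (Pb.rh hV) a : V) : K') =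
      G.eval₂ ((algebraMap K K').comp Q.ring.subtype) (algebraMap ℂ K' α) := fun G =>
    hom_eval₂ G (Pb.rh hV) V.subtype a
  have evl : ∀ g : L[X], (g.map (lO hQ)).eval₂ ((algebraMap K K').comp Q.ring.subtype)
      (algebraMap ℂ K' α) = algebraMap ℂ K' (aeval α g) := fun g => by
    rw [eval₂_map, ← aeval_algebraMap_apply]
    rfl
  have mem : ∀ G : Q.ring[X], ((G.eval₂ (Pb.rh hV) a : V) : K') ∈ RR (algebraMap K K') Q :=
    fun G => by
      rw [ev, eval₂_eq_sum_range]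
      exact sum_mem fun i _ => mul_mem (mem_RR (G.coeff i).2)
        (pow_mem (Subalgebra.algebraMap_mem _ α) i)
  have hF : (((∑ i, C (o i) * (p i).map (lO hQ)).eval₂ (Pb.rh hV) a : V) : K') =
      ∑ i, c i • algebraMap K K' (o i) := by
    rw [ev, eval₂_finset_sum]
    refine Finset.sum_congr rfl fun i _ => ?_
    rw [eval₂_mul, eval₂_C, evl, hp, Algebra.smul_def, mul_comm]
    rfl
  obtain ⟨H, W, h1, h2⟩ := hensel (lO hQ) (residue Q.ring) residue_surjective
    (t := ⟨Q.t, Cb.t_mem Q⟩) (fun y hy => ⟨⟨y / Q.t, (Cb.rd_eq_zero y.2).1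
      ((Cb.rd_of y.2).trans hy)⟩, Subtype.ext (mul_div_cancel₀ _ Q.t_ne).symm⟩)
    (Pb.rh hV) (residue V) (Pb.rm hV) (fun _ => rfl) (a := a) (p := minpoly L α)
    (minpoly.irreducible hα).separable (Subtype.ext (by
      rw [ev, evl, minpoly.aeval, map_zero]; rfl))
    (F := ∑ i, C (o i) * (p i).map (lO hQ)) ((residue_eq_zero_iff _).2
      ((V.valuation_lt_one_iff _).2 (hF ▸ h0)))
  refine ⟨_, mem H, _, mem W, (V.valuation_eq_one_iff _).1 ((residue_ne_zero_iff_isUnit _).1 h1),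
    ?_⟩
  rw [← hF]
  exact congrArg Subtype.val h2

theorem step3 (N : ℕ) : ∀ y ∈ RR φ Q, V.valuation (φ Q.t) ^ N ≤ V.valuation y →
    ∃ k : ℕ, ∃ a ∈ RR φ Q, ∃ b ∈ RR φ Q, V.valuation a = 1 ∧ V.valuation b = 1 ∧
      b * y = φ Q.t ^ k * a := by
  have le : ∀ y ∈ RR φ Q, V.valuation y ≤ 1 := fun y hy =>
    (V.valuation_le_one_iff _).2 (RR_le hV (h.con hQ hV) hy)
  have one : ∀ y ∈ RR φ Q, 1 ≤ V.valuation y →
      ∃ k : ℕ, ∃ a ∈ RR φ Q, ∃ b ∈ RR φ Q, V.valuation a = 1 ∧ V.valuation b = 1 ∧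
        b * y = φ Q.t ^ k * a := fun y hy k =>
    ⟨0, y, hy, 1, one_mem _, le_antisymm (le y hy) k, map_one _, by rw [pow_zero]⟩
  induction N with
  | zero => exact fun y hy k => one y hy (by rwa [pow_zero] at k)
  | succ N ih =>
    intro y hy k
    by_cases h1 : 1 ≤ V.valuation y
    · exact one y hy h1
    obtain ⟨z, hz, w, hw, h2, h3⟩ := h.step1 hQ hV hy (not_le.1 h1)
    have h4 := congrArg V.valuation h3
    rw [map_mul, map_mul, h2, one_mul] at h4
    have t0 : 0 < V.valuation (φ Q.t) :=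
      zero_lt_iff.2 ((_root_.map_ne_zero _).2 ((_root_.map_ne_zero _).2 Q.t_ne))
    rw [h4, pow_succ'] at k
    obtain ⟨i, a, ha, b, hb, h5, h6, h7⟩ := ih w hw (le_of_mul_le_mul_left k t0)
    refine ⟨i + 1, a, ha, b * z, mul_mem hb hz, h5, by rw [map_mul, h6, h2, mul_one], ?_⟩
    rw [mul_assoc, h3, mul_left_comm, h7]
    ring

/-- **the structure of the valuations above a horizontal place** -/
theorem fac {x : K'} (x0 : x ≠ 0) : ∃ k : ℤ, ∃ a ∈ RR φ Q, ∃ b ∈ RR φ Q, V.valuation a = 1 ∧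
    V.valuation b = 1 ∧ x = φ Q.t ^ k * (a / b) := by
  have t0 : φ Q.t ≠ 0 := (_root_.map_ne_zero _).2 Q.t_ne
  obtain ⟨i, hi⟩ := h.step2 Q x
  have y0 : φ Q.t ^ i * x ≠ 0 := mul_ne_zero (pow_ne_zero _ t0) x0
  obtain ⟨N, hN⟩ := h.step2 Q (φ Q.t ^ i * x)⁻¹
  have h1 := (V.valuation_le_one_iff _).2 (RR_le hV (h.con hQ hV) hN)
  rw [map_mul, map_inv₀, map_pow,
    mul_inv_le_iff₀ (zero_lt_iff.2 ((_root_.map_ne_zero _).2 y0)), one_mul] at h1
  obtain ⟨k, a, ha, b, hb, h2, h3, h4⟩ := h.step3 hQ hV N _ hi h1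
  have b0 : b ≠ 0 := fun e => by simp [e] at h3
  refine ⟨k - i, a, ha, b, hb, h2, h3, ?_⟩
  rw [zpow_sub₀ t0, zpow_natCast, zpow_natCast]
  field_simp
  linear_combination h4

theorem dvr : IsDiscreteValuationRing V := by
  have t0 : φ Q.t ≠ 0 := (_root_.map_ne_zero _).2 Q.t_ne
  let p : V := ⟨φ Q.t, (hV _).1 (Cb.t_mem Q)⟩
  have f : ∀ {x : V}, x ≠ 0 → ∃ n : ℕ, Associated (p ^ n) x := fun {x} x0 => by
    obtain ⟨k, a, -, b, -, h1, h2, h3⟩ := h.fac hQ hV (x := x) fun e => x0 (Subtype.ext e)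
    have h4 : V.valuation (a / b) = 1 := by rw [map_div₀, h1, h2, div_one]
    have h5 := V.valuation_le_one x
    rw [h3, map_mul, h4, mul_one, map_zpow₀, zpow_le_one_iff_right_of_lt_one₀
      (zero_lt_iff.2 ((_root_.map_ne_zero _).2 t0)) (t_lt hV)] at h5
    obtain ⟨n, rfl⟩ := Int.eq_ofNat_of_zero_le h5
    obtain ⟨u, hu⟩ := (V.valuation_eq_one_iff ⟨a / b, (V.valuation_le_one_iff _).1 h4.le⟩).2 h4
    refine ⟨n, u, Subtype.ext ?_⟩
    rw [hu, h3, zpow_natCast]
    rfl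
  have p0 : p ≠ 0 := fun e => t0 (congrArg Subtype.val e)
  have nu : ¬ IsUnit p := fun k => (t_lt hV).ne ((V.valuation_eq_one_iff p).1 k)
  refine IsDiscreteValuationRing.ofHasUnitMulPowIrreducibleFactorization
    ⟨p, ⟨nu, fun a b e => ?_⟩, f⟩
  obtain ⟨i, hi⟩ := f (x := a) (left_ne_zero_of_mul (e ▸ p0))
  obtain ⟨j, hj⟩ := f (x := b) (right_ne_zero_of_mul (e ▸ p0))
  obtain _ | i := i
  · exact Or.inl (associated_one_iff_isUnit.1 (by simpa using hi.symm))
  obtain _ | j := j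
  · exact Or.inr (associated_one_iff_isUnit.1 (by simpa using hj.symm))
  have : p * p ∣ p * 1 := by
    rw [mul_one]
    conv_rhs => rw [e]
    exact mul_dvd_mul ((dvd_pow_self p i.succ_ne_zero).trans hi.dvd)
      ((dvd_pow_self p j.succ_ne_zero).trans hj.dvd)
  exact absurd (isUnit_of_dvd_one ((mul_dvd_mul_iff_left p0).1 this)) nu

theorem gen_rd : Subfield.closure (range (Pb.rm hV) ∪ range ((residue V).comp
    ((algebraMap ℂ K').codRestrict V (h.con hQ hV)))) = ⊤ := by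
  set S := Subfield.closure (range (Pb.rm hV) ∪ range ((residue V).comp
    ((algebraMap ℂ K').codRestrict V (h.con hQ hV))))
  have hc := h.con hQ hV
  have m : ∀ y (hy : y ∈ RR φ Q), residue V ⟨y, RR_le hV hc hy⟩ ∈ S := fun y hy => by
    induction hy using Algebra.adjoin_induction with
    | mem x hx =>
      obtain ⟨f, hf, rfl⟩ := hx
      exact Subfield.subset_closure (Or.inl ⟨residue _ ⟨f, hf⟩, rfl⟩)
    | algebraMap c => exact Subfield.subset_closure (Or.inr ⟨c, rfl⟩)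
    | add x y a b c d =>
      exact map_add (residue V) ⟨x, RR_le hV hc a⟩ ⟨y, RR_le hV hc b⟩ ▸ add_mem c d
    | mul x y a b c d =>
      exact map_mul (residue V) ⟨x, RR_le hV hc a⟩ ⟨y, RR_le hV hc b⟩ ▸ mul_mem c d
  refine eq_top_iff.2 fun z _ => ?_
  obtain ⟨x, rfl⟩ := residue_surjective z
  by_cases h0 : residue V x = 0
  · exact h0 ▸ zero_mem _
  have h6 := (V.valuation_eq_one_iff _).1 ((residue_ne_zero_iff_isUnit _).1 h0)
  obtain ⟨k, a, ha, b, hb, h1, h2, h3⟩ := h.fac hQ hV (x := x) fun e => by simp [e] at h6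
  have t0 : φ Q.t ≠ 0 := (_root_.map_ne_zero _).2 Q.t_ne
  rw [h3, map_mul, map_div₀, h1, h2, div_one, mul_one, map_zpow₀, zpow_eq_one_iff_right₀
    zero_le' (t_lt hV).ne] at h6
  have b0 : b ≠ 0 := fun e => by simp [e] at h2
  have h7 : x * ⟨b, RR_le hV hc hb⟩ = ⟨a, RR_le hV hc ha⟩ := Subtype.ext (by
    change (x : K') * b = a
    rw [h3, h6, zpow_zero, one_mul, div_mul_cancel₀ _ b0])
  have h8 : residue V ⟨b, RR_le hV hc hb⟩ ≠ 0 :=
    (residue_ne_zero_iff_isUnit _).2 ((V.valuation_eq_one_iff _).2 h2)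
  rw [eq_div_of_mul_eq h8 ((map_mul (residue V) _ _).symm.trans (congrArg _ h7))]
  exact div_mem (m a ha) (m b hb)

theorem exists_pl (hL : FF L r) : ∃ P : Pl K', P.ring = V := by
  refine ⟨⟨⟨V, h.dvr hQ hV⟩, h.con hQ hV, ?_⟩, rfl⟩
  have g := h.gen_rd hQ hV
  refine h.elim fun e b => ?_
  subst e
  letI : Algebra ℂ (ResidueField V) := (cst ⟨V, h.dvr hQ hV⟩ (h.con hQ hV)).toAlgebra
  letI : Algebra L Q.κ := (lK hQ).toAlgebra
  letI : Algebra Q.κ (ResidueField V) := (Pb.rm hV).toAlgebra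
  letI : Algebra L (ResidueField V) := ((Pb.rm hV).comp (lK hQ)).toAlgebra
  haveI : IsScalarTower L Q.κ (ResidueField V) := IsScalarTower.of_algebraMap_eq fun _ => rfl
  haveI : IsScalarTower L ℂ (ResidueField V) := IsScalarTower.of_algebraMap_eq fun a =>
    congrArg (residue V) (Subtype.ext (IsScalarTower.algebraMap_apply L ℂ K' a))
  haveI : IsScalarTower ℂ L Q.κ := IsScalarTower.of_algebraMap_eq fun _ => rfl
  have h1 : Algebra.trdeg ℂ (ResidueField V) = Algebra.trdeg L Q.κ := trdeg_gen g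
  have h2 : Algebra.trdeg ℂ Q.κ + 1 = Algebra.trdeg ℂ K := Q.dvl
  rw [← trdeg_add_eq ℂ L (A := Q.κ), ← trdeg_add_eq ℂ L (A := K), hL.trdeg, add_assoc,
    add_comm, add_comm (r : Cardinal), Cardinal.add_nat_inj] at h2
  change Algebra.trdeg ℂ (ResidueField V) + 1 = _
  rw [h1, h2, b.trdeg]

end GF

end Vale.Agent.P287D
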